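import Vale.Agent.P092RA.Defs

/-!
P092, rank one, block A0 (helper3): atoms on annuli, the partition of unity by walls.
-/

set_option linter.all false

open MeasureTheory Filter Topology
open scoped InnerProductSpace ContDiff ENNReal

namespace Vale.Agent.P092RA

open Vale.Agent.P092.H793.Re Vale.Agent.P092RG

variable {n : ℕ} {G : Type} [Group G] [TopologicalSpace G]
variable {ρ : G →* SLn n} {w : Fin n → ℝ}

/-- a smooth positive function equal to the identity above `c` -/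
noncomputable def sm (c s : ℝ) : ℝ :=
  c / 2 + (s - c / 2) * Real.smoothTransition ((s - c / 2) / (c / 2))

theorem contDiff_sm (c : ℝ) : ContDiff ℝ ∞ (sm c) :=
  contDiff_const.add ((contDiff_id.sub contDiff_const).mul
    (Real.smoothTransition.contDiff.comp ((contDiff_id.sub contDiff_const).div_const _)))

theorem sm_eq {c s : ℝ} (hc : 0 < c) (hs : c ≤ s) : sm c s = s := by
  unfold sm
  rw [Real.smoothTransition.one_of_one_le ((one_le_div (by linarith)).2 (by linarith))]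
  ring

theorem sm_bd {c : ℝ} (hc : 0 < c) (s : ℝ) : c / 2 ≤ sm c s ∧ (s ≤ c → sm c s ≤ c) := by
  unfold sm
  rcases le_total s (c / 2) with h1 | h1
  · rw [Real.smoothTransition.zero_of_nonpos
      (div_nonpos_of_nonpos_of_nonneg (by linarith) (by linarith))]
    exact ⟨by linarith, fun _ => by linarith⟩
  · have h2 := Real.smoothTransition.nonneg ((s - c / 2) / (c / 2))
    have h3 := Real.smoothTransition.le_one ((s - c / 2) / (c / 2))
    exact ⟨by nlinarith, fun _ => by nlinarith⟩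

theorem sm_pos {c : ℝ} (hc : 0 < c) (s : ℝ) : 0 < sm c s := by
  have := (sm_bd hc s).1
  linarith

variable (h : R1 ρ w)
include h
variable [IsTopologicalGroup G] [SecondCountableTopology G] [MeasurableSpace G] [BorelSpace G]

theorem wall_atom' {ι : Type} [Fintype ι] {Φ : (ι → ℝ) → ℂ} (hΦ : ContDiff ℝ ∞ Φ) (Λ : ℝ) :
    ∃ C : ℝ, 0 ≤ C ∧ ∀ (t : ℝ) (v : G) (Z : SN h.Y) (a : ι → ℝ) (l : ι → EE n),
      (∀ i, |a i| ≤ Λ) → (∀ i, ‖l i‖ ≤ Λ) → ∀ f : C(h.Y, ℂ),
        (∀ ξ, f ξ = Φ fun i => a i + ⟪l i, du h ξ⟫_ℝ) →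
          Z.p (act h t v (sh h v * f)) ≤ C * Real.sqrt (qw h t v Z) := by
  let e := Fintype.equivFin ι
  obtain ⟨C, hC, hA⟩ := wall_atom h (Φ := fun z : Fin (Fintype.card ι) → ℝ => Φ fun i => z (e i))
    (hΦ.comp (contDiff_pi.2 fun i => contDiff_apply ℝ ℝ (e i))) Λ
  exact ⟨C, hC, fun t v Z a l ha hl f hf => hA t v Z (fun j => a (e.symm j)) (fun j => l (e.symm j))
    (fun j => ha _) (fun j => hl _) f fun ξ => by simpa using hf ξ⟩

/-- the cutoff of the shadow of `v` -/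
noncomputable def cut (v : G) : C(h.Y, ℂ) := act h 0 v (sh h v)

theorem cut_apply (v : G) (ξ : h.Y) : cut h v ξ = (ps h.lam (be h v (v⁻¹ • ξ)) : ℂ) := by
  unfold cut
  rw [act_apply, zero_mul, neg_zero, Real.exp_zero, Complex.ofReal_one, one_mul, sh_apply]

theorem continuous_cut : Continuous (cut h) :=
  (continuous_act h 0).comp (f := fun v => (v, sh h v)) (continuous_id.prodMk (continuous_sh h))

theorem cut_mul_eq_zero {v : G} {f : C(h.Y, ℂ)} (e : ∀ ξ, -2 < bo h v ξ → f (v • ξ) = 0) :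
    cut h v * f = 0 := by
  ext ξ
  rw [ContinuousMap.mul_apply, cut_apply, ContinuousMap.zero_apply]
  by_cases h0 : ps h.lam (be h v (v⁻¹ • ξ)) = 0
  · rw [h0, Complex.ofReal_zero, zero_mul]
  · have := e _ (lt_bo h h0)
    rw [smul_inv_smul] at this
    rw [this, mul_zero]

theorem log_be (y : G) (ξ : h.Y) : Real.log (be h y ξ) = 2 * h.lam * bo h y ξ := Real.log_exp _

/-- **atoms on an annulus** -/
theorem ann {m : ℕ} {Ξ : ℝ × (Fin m → ℝ) → ℂ} (hΞ : ContDiff ℝ ∞ Ξ) {c₀ : ℂ}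
    (h1 : ∀ x z, 1 ≤ x → Ξ (x, z) = c₀) (Λ : ℝ) : ∃ C : ℝ, 0 ≤ C ∧ ∀ t : ℝ, |t| ≤ 1 →
      ∀ (v y : G) (Z : SN h.Y) (b : ℝ) (a : Fin m → ℝ) (l : Fin m → EE n), |b| ≤ Λ →
      (∀ i, |a i| ≤ Λ) → (∀ i, ‖l i‖ ≤ Λ) → ∀ f : C(h.Y, ℂ),
        (∀ ξ, -2 < bo h v ξ → f (v • ξ) = Ξ (b + (bo h v ξ - bo h y ξ) / 2,
          fun i => a i + ⟪l i, du h ξ⟫_ℝ / be h y ξ)) →
        Z.p (cut h v * f) ≤ C * Real.exp (-(t * h.rr v)) * Real.sqrt (qw h t v Z) := by
  have hl := h.lam_pos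
  obtain ⟨c, hcd⟩ : ∃ c, c = Real.exp (2 * h.lam * (-2 * |Λ| - 4)) := ⟨_, rfl⟩
  have hc : 0 < c := hcd ▸ Real.exp_pos _
  have hlg : ContDiff ℝ ∞ fun s => Real.log (sm c s) :=
    (contDiff_sm c).log fun s => (sm_pos hc s).ne'
  have hin : ContDiff ℝ ∞ fun s => (sm c s)⁻¹ := (contDiff_sm c).inv fun s => (sm_pos hc s).ne'
  let Φ : (Fin 4 ⊕ Fin m ⊕ Fin m → ℝ) → ℂ := fun z =>
    (Real.exp (-(z (.inl 3) * (Real.log (sm c (z (.inl 0))) / (2 * h.lam)))) : ℝ) *
      Ξ (z (.inl 2) + (Real.log (sm c (z (.inl 0))) - Real.log (sm c (z (.inl 1)))) / (4 * h.lam),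
        fun i => z (.inr (.inl i)) + z (.inr (.inr i)) * (sm c (z (.inl 1)))⁻¹)
  have hp : ∀ j, ContDiff ℝ ∞ fun z : Fin 4 ⊕ Fin m ⊕ Fin m → ℝ => z j :=
    fun j => contDiff_apply ℝ ℝ j
  have hΦ : ContDiff ℝ ∞ Φ :=
    (Complex.ofRealCLM.contDiff.comp (Real.contDiff_exp.comp ((hp _).mul
      ((hlg.comp (hp _)).div_const _)).neg)).mul (hΞ.comp (((hp _).add
        (((hlg.comp (hp _)).sub (hlg.comp (hp _))).div_const _)).prodMk
          (contDiff_pi.2 fun i => (hp _).add ((hp _).mul (hin.comp (hp _))))))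
  obtain ⟨C, hC, hA⟩ := wall_atom' h hΦ (|Λ| + n + 1)
  refine ⟨C, hC, fun t ht v y Z b a l hb ha hl' f hf => ?_⟩
  obtain ⟨l1, n1, e1⟩ := exists_be h v
  obtain ⟨l2, n2, e2⟩ := exists_be h y
  have hΛ := abs_nonneg Λ
  have hΛ' := le_abs_self Λ
  have hn : (0 : ℝ) ≤ n := Nat.cast_nonneg n
  let av : Fin 4 ⊕ Fin m ⊕ Fin m → ℝ := Sum.elim ![0, 0, b, t] (Sum.elim a 0)
  let lv : Fin 4 ⊕ Fin m ⊕ Fin m → EE n := Sum.elim ![l1, l2, 0, 0] (Sum.elim 0 l)
  let g : C(h.Y, ℂ) := ⟨fun ξ => Φ fun i => av i + ⟪lv i, du h ξ⟫_ℝ,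
    hΦ.continuous.comp (continuous_pi fun i => continuous_const.add
      (continuous_const.inner (du h).continuous))⟩
  have h2 := hA t v Z av lv (by
    rintro (i | i | i)
    · fin_cases i <;> simp [av] <;> linarith
    · exact (ha i).trans (by linarith)
    · simp [av]; linarith) (by
    rintro (i | i | i)
    · fin_cases i <;> simp [lv] <;> linarith
    · simp [lv]; linarith
    · exact (hl' i).trans (by linarith)) g fun ξ => rfl
  have e : cut h v * f = (Real.exp (-(t * h.rr v)) : ℂ) • act h t v (sh h v * g) := by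
    ext ξ
    obtain ⟨ξ, rfl⟩ : ∃ ξ', ξ = v • ξ' := ⟨v⁻¹ • ξ, (smul_inv_smul v ξ).symm⟩
    rw [ContinuousMap.mul_apply, cut_apply, ContinuousMap.smul_apply, act_apply, inv_smul_smul,
      ContinuousMap.mul_apply, sh_apply, h.co_inv]
    by_cases h0 : ps h.lam (be h v ξ) = 0
    · rw [h0]
      simp
    have h3 := lt_bo h h0
    have h4 : sm c (be h v ξ) = be h v ξ := sm_eq hc (by
      rw [hcd]
      exact Real.exp_le_exp.2 (by nlinarith))
    have h5 : g ξ = (Real.exp (-(t * bo h v ξ)) : ℝ) *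
        Ξ (b + (2 * h.lam * bo h v ξ - Real.log (sm c (be h y ξ))) / (4 * h.lam),
          fun i => a i + ⟪l i, du h ξ⟫_ℝ * (sm c (be h y ξ))⁻¹) := by
      show Φ (fun i => av i + ⟪lv i, du h ξ⟫_ℝ) = _
      simp only [Φ, av, lv, Sum.elim_inl, Sum.elim_inr, Matrix.cons_val, inner_zero_left,
        add_zero, zero_add, Pi.zero_apply, ← e1, ← e2, h4, log_be]
      rw [mul_div_cancel_left₀ _ (by positivity : 2 * h.lam ≠ 0)]
    have h6 : Ξ (b + (2 * h.lam * bo h v ξ - Real.log (sm c (be h y ξ))) / (4 * h.lam),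
        fun i => a i + ⟪l i, du h ξ⟫_ℝ * (sm c (be h y ξ))⁻¹) = f (v • ξ) := by
      rw [hf ξ h3]
      have hb' := (abs_le.1 (hb.trans hΛ')).1
      rcases le_total c (be h y ξ) with h7 | h7
      · rw [sm_eq hc h7, log_be]
        congr 2
        field_simp
        ring
      · have h8 : Real.log (sm c (be h y ξ)) ≤ 2 * h.lam * (-2 * |Λ| - 4) := by
          rw [Real.log_le_iff_le_exp (sm_pos hc _), ← hcd]
          exact (sm_bd hc _).2 h7
        have h9 : bo h y ξ ≤ -2 * |Λ| - 4 := by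
          rw [hcd] at h7
          exact le_of_mul_le_mul_left (Real.exp_le_exp.1 h7) (by positivity)
        have : |Λ| + 1 ≤ (2 * h.lam * bo h v ξ - Real.log (sm c (be h y ξ))) / (4 * h.lam) := by
          rw [le_div_iff₀ (by positivity)]
          nlinarith
        rw [h1 _ _ (by linarith), h1 _ _ (by linarith)]
    have h7 : (Real.exp (-(t * h.rr v)) : ℂ) * (Real.exp (-(t * -h.co v ξ)) : ℝ) *
        (Real.exp (-(t * bo h v ξ)) : ℝ) = 1 := by
      rw [← Complex.ofReal_mul, ← Complex.ofReal_mul, ← Real.exp_add, ← Real.exp_add]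
      unfold bo
      rw [show -(t * h.rr v) + -(t * -h.co v ξ) + -(t * (h.co v ξ - h.rr v)) = 0 by ring]
      simp
    rw [h5, h6, smul_eq_mul]
    linear_combination (-((ps h.lam (be h v ξ) : ℂ) * f (v • ξ))) * h7
  rw [e, Z.smul, Complex.norm_real, Real.norm_eq_abs, abs_of_pos (Real.exp_pos _), mul_right_comm,
    mul_comm]
  exact mul_le_mul_of_nonneg_right h2 (Real.exp_pos _).le

theorem be_K_mul {κ : G} (hκ : κ ∈ h.K) (v : G) (ξ : h.Y) : be h (κ * v) ξ = be h v ξ := by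
  unfold be bo
  rw [h.co_mul, h.co_of_K hκ, zero_add, h.rr_K_mul hκ]

/-- the shells -/
def shl (j : ℝ) : Set G := {v | j ≤ h.rr v ∧ h.rr v ≤ j + 1}

theorem isClosed_shl (j : ℝ) : IsClosed (shl h j) :=
  (isClosed_le continuous_const h.continuous_rr).inter (isClosed_le h.continuous_rr continuous_const)

theorem isCompact_shl (j : ℝ) : IsCompact (shl h j) :=
  (h.isCompact_ball (j + 1)).of_isClosed_subset (isClosed_shl h j) fun _ hv => hv.2

variable [LocallyCompactSpace G] (μ : Measure G) [μ.IsHaarMeasure]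

theorem measurableSet_bl (y : G) (R : ℝ) : MeasurableSet {v | h.rr (y⁻¹ * v) ≤ R} :=
  (isClosed_le (h.continuous_rr.comp (continuous_const_mul _)) continuous_const).measurableSet

theorem measure_bl (y : G) (R : ℝ) : μ {v | h.rr (y⁻¹ * v) ≤ R} = μ {v | h.rr v ≤ R} :=
  measure_preimage_mul μ y⁻¹ {v | h.rr v ≤ R}

theorem bl_lt_top (y : G) (R : ℝ) : μ {v | h.rr (y⁻¹ * v) ≤ R} < ⊤ := by
  rw [measure_bl]
  exact (h.isCompact_ball R).measure_lt_top

/-- the partition of unity by the walls of a shell -/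
theorem pu : ∃ c₀ : ℝ, 0 < c₀ ∧ ∀ j : ℝ, 0 ≤ j → ∃ c : ℝ, c₀ ≤ c ∧ ∀ ξ : h.Y,
    ∫ v in shl h j, ps h.lam (be h v (v⁻¹ • ξ)) ∂μ = c := by
  have h0 : 0 < μ {v | h.rr v ≤ 1 / 2} := by
    refine lt_of_lt_of_le (IsOpen.measure_pos μ (isOpen_lt h.continuous_rr continuous_const
      (g := fun _ => (1 / 2 : ℝ))) ⟨1, ?_⟩) (measure_mono fun v (hv : h.rr v < 1 / 2) => hv.le)
    show h.rr 1 < 1 / 2
    rw [h.rr_one]
    norm_num
  refine ⟨μ.real {v | h.rr v ≤ 1 / 2}, ENNReal.toReal_pos h0.ne'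
    (h.isCompact_ball _).measure_lt_top.ne, fun j hj =>
    ⟨∫ v in shl h j, ps h.lam (be h v (v⁻¹ • ((1 : G) : h.Y))) ∂μ, ?_, fun ξ => ?_⟩⟩
  · have hc : Continuous fun v : G => ps h.lam (be h v (v⁻¹ • ((1 : G) : h.Y))) :=
      (continuous_ps _).comp ((continuous_be h).comp (f := fun v : G => (v, v⁻¹ • ((1 : G) : h.Y)))
        (by fun_prop))
    have hs : {v | h.rr ((h.a (j + 1 / 2))⁻¹ * v) ≤ 1 / 2} ⊆ shl h j := fun v hv => by
      have h1 := abs_le.1 (h.abs_rr_mul_sub' (h.a (j + 1 / 2)) ((h.a (j + 1 / 2))⁻¹ * v))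
      rw [mul_inv_cancel_left, h.rr_a, abs_of_nonneg (by linarith)] at h1
      have h2 : h.rr ((h.a (j + 1 / 2))⁻¹ * v) ≤ 1 / 2 := hv
      exact ⟨by linarith, by linarith⟩
    refine le_trans (le_of_eq ?_) (setIntegral_mono_set
      (hc.continuousOn.integrableOn_compact' (isCompact_shl h j) (isClosed_shl h j).measurableSet)
      (Eventually.of_forall fun v => ps_nonneg _ _) hs.eventuallyLE)
    rw [setIntegral_congr_fun (g := fun _ => (1 : ℝ)) (measurableSet_bl h _ _) fun v hv => ?_]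
    · rw [setIntegral_const, smul_eq_mul, mul_one, Measure.real, Measure.real, measure_bl]
    · refine ps_be_one h ?_
      have h1 := (hs hv).2
      have h2 : h.rr ((h.a (j + 1 / 2))⁻¹ * v) ≤ 1 / 2 := hv
      have h3 := h.co_inv v⁻¹ ((1 : G) : h.Y)
      rw [inv_inv, h.co_K _ h.K.one_mem, mul_one] at h3
      have h4 := h.hs_mul_le ((h.a (j + 1 / 2))⁻¹ * v)⁻¹ (h.a (-(j + 1 / 2)))
      rw [h.rr_inv, h.hs_a, h.a_neg, mul_inv_rev, inv_inv, mul_inv_cancel_right] at h4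
      unfold bo
      linarith
  · obtain ⟨κ, hκ, rfl⟩ := h.exists_K ξ
    rw [← integral_indicator (isClosed_shl h j).measurableSet,
      ← integral_indicator (isClosed_shl h j).measurableSet, ← integral_mul_left_eq_self _ κ]
    refine integral_congr_ae (Eventually.of_forall fun v => ?_)
    have e : (κ * v)⁻¹ • (κ : h.Y) = v⁻¹ • ((1 : G) : h.Y) := by
      rw [h.smul_mkY, h.smul_mkY]
      congr 1
      group
    have e2 : κ * v ∈ shl h j ↔ v ∈ shl h j := by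
      unfold shl
      rw [Set.mem_setOf_eq, Set.mem_setOf_eq, h.rr_K_mul hκ]
    by_cases h1 : v ∈ shl h j
    · simp only [Set.indicator_of_mem h1, Set.indicator_of_mem (e2.2 h1), e, be_K_mul h hκ]
    · simp only [Set.indicator_of_notMem h1, Set.indicator_of_notMem (mt e2.1 h1)]

theorem integrableOn_qw (t : ℝ) (Z : SN h.Y) (y : G) (R : ℝ) :
    IntegrableOn (fun v => qw h t v Z) {v | h.rr (y⁻¹ * v) ≤ R} μ := by
  refine Measure.integrableOn_of_bounded (M := (Z.B * Real.exp (|t| * (h.rr y + R))) ^ 2 *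
    ∫ η : EE n, wt (MM h) η) (bl_lt_top h μ y R).ne (measurable_qw h t Z).aestronglyMeasurable
    ((ae_restrict_iff' (measurableSet_bl h y R)).2 (Eventually.of_forall fun v hv => ?_))
  rw [Real.norm_eq_abs, abs_of_nonneg (qw_nonneg h t v Z)]
  refine (qw_le h t v Z).trans (mul_le_mul_of_nonneg_right (pow_le_pow_left₀
    (mul_nonneg Z.B0 (Real.exp_pos _).le) (mul_le_mul_of_nonneg_left (Real.exp_le_exp.2
      (mul_le_mul_of_nonneg_left ?_ (abs_nonneg t))) Z.B0) 2)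
    (integral_nonneg fun η => (wt_pos _ _).le))
  have h1 := h.rr_mul_le y (y⁻¹ * v)
  rw [mul_inv_cancel_left] at h1
  have h2 : h.rr (y⁻¹ * v) ≤ R := hv
  linarith

theorem bb_nonneg (t : ℝ) (Z : SN h.Y) (y : G) (R : ℝ) : 0 ≤ bb h μ t Z y R := Real.sqrt_nonneg _

theorem bb_sq (t : ℝ) (Z : SN h.Y) (y : G) (R : ℝ) :
    bb h μ t Z y R ^ 2 = ∫ v in {v | h.rr (y⁻¹ * v) ≤ R}, qw h t v Z ∂μ :=
  Real.sq_sqrt (integral_nonneg fun v => qw_nonneg h t v Z)

theorem bb_mono (t : ℝ) (Z : SN h.Y) {y y' : G} {R R' : ℝ} (e : h.rr (y'⁻¹ * y) + R ≤ R') :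
    bb h μ t Z y R ≤ bb h μ t Z y' R' := by
  refine Real.sqrt_le_sqrt (setIntegral_mono_set (integrableOn_qw h μ t Z y' R')
    (Eventually.of_forall fun v => qw_nonneg h t v Z) (HasSubset.Subset.eventuallyLE fun v hv => ?_))
  have h1 := h.rr_mul_le (y'⁻¹ * y) (y⁻¹ * v)
  rw [mul_assoc, mul_inv_cancel_left] at h1
  have h2 : h.rr (y⁻¹ * v) ≤ R := hv
  show h.rr (y'⁻¹ * v) ≤ R'
  linarith

/-- **from the walls of a shell to the function** -/
theorem gpl : ∃ C : ℝ, 0 ≤ C ∧ ∀ (t : ℝ) (Z : SN h.Y) (j : ℝ) (y : G) (R A : ℝ) (f : C(h.Y, ℂ)),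
    0 ≤ j → 0 ≤ R → 0 ≤ A →
    (∀ v ∈ shl h j, h.rr (y⁻¹ * v) ≤ R → Z.p (cut h v * f) ≤ A * Real.sqrt (qw h t v Z)) →
    (∀ v ∈ shl h j, R < h.rr (y⁻¹ * v) → cut h v * f = 0) →
    Z.p f ≤ C * Real.exp (h.Q * R / 2) * A * bb h μ t Z y R := by
  obtain ⟨c₀, hc₀, hpu⟩ := pu h μ
  obtain ⟨C, hC⟩ := h.ball_le μ
  refine ⟨c₀⁻¹ * Real.exp (C / 2), by positivity, fun t Z j y R A f hj hR hA h1 h2 => ?_⟩
  obtain ⟨c, hc, e⟩ := hpu j hj
  have hc' : 0 < c := hc₀.trans_le hc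
  have hm := (isClosed_shl h j).measurableSet
  have hB := measurableSet_bl h y R
  have hF : IntegrableOn (fun v => cut h v * f) (shl h j) μ :=
    ((continuous_cut h).mul continuous_const).continuousOn.integrableOn_compact'
      (isCompact_shl h j) hm
  have h3 : Z.p ((c : ℂ) • f) ≤ ∫ v in shl h j, Z.p (cut h v * f) ∂μ := Z.zi hF fun ξ => by
    simp only [ContinuousMap.mul_apply, cut_apply, ContinuousMap.smul_apply, smul_eq_mul]
    rw [integral_mul_const, integral_complex_ofReal, e]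
  rw [Z.smul, Complex.norm_real, Real.norm_eq_abs, abs_of_pos hc'] at h3
  haveI : IsFiniteMeasure (μ.restrict {v | h.rr (y⁻¹ * v) ≤ R}) :=
    isFiniteMeasure_restrict.2 (bl_lt_top h μ y R).ne
  have hq := integrableOn_qw h μ t Z y R
  have hq2 : Integrable (fun v => 1 * Real.sqrt (qw h t v Z) ^ 2)
      (μ.restrict {v | h.rr (y⁻¹ * v) ≤ R}) := by
    simpa only [one_mul, Real.sq_sqrt (qw_nonneg h t _ Z)] using hq.integrable
  have hq1 : IntegrableOn (fun v => Real.sqrt (qw h t v Z)) {v | h.rr (y⁻¹ * v) ≤ R} μ := by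
    refine Integrable.mono' ((integrable_const (1 : ℝ)).add hq)
      (measurable_qw h t Z).sqrt.aestronglyMeasurable (Eventually.of_forall fun v => ?_)
    rw [Real.norm_eq_abs, abs_of_nonneg (Real.sqrt_nonneg _)]
    have h4 := Real.sq_sqrt (qw_nonneg h t v Z)
    show _ ≤ 1 + qw h t v Z
    nlinarith [sq_nonneg (Real.sqrt (qw h t v Z) - 1)]
  have h4 : ∫ v in shl h j, Z.p (cut h v * f) ∂μ ≤
      ∫ v in {v | h.rr (y⁻¹ * v) ≤ R}, A * Real.sqrt (qw h t v Z) ∂μ := by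
    rw [← integral_indicator hm, ← integral_indicator hB]
    refine integral_mono ((integrable_indicator_iff hm).2 (Z.integrable hF))
      ((integrable_indicator_iff hB).2 (hq1.const_mul A)) fun v => ?_
    by_cases h5 : v ∈ shl h j
    · rw [Set.indicator_of_mem h5]
      by_cases h6 : h.rr (y⁻¹ * v) ≤ R
      · rw [Set.indicator_of_mem (show v ∈ {v | h.rr (y⁻¹ * v) ≤ R} from h6)]
        exact h1 v h5 h6
      · rw [h2 v h5 (not_le.1 h6), Z.zero]
        exact Set.indicator_nonneg (fun v _ => by positivity) v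
    · rw [Set.indicator_of_notMem h5]
      exact Set.indicator_nonneg (fun v _ => by positivity) v
  have h5 := int_cs (k := fun _ => (1 : ℝ)) (z := fun v => Real.sqrt (qw h t v Z))
    (fun _ => zero_le_one) (integrable_const _) hq2 (by simpa only [one_mul] using hq1.integrable)
  simp only [one_mul, Real.sq_sqrt (qw_nonneg h t _ Z)] at h5
  have h6 : Real.sqrt (∫ _ in {v | h.rr (y⁻¹ * v) ≤ R}, (1 : ℝ) ∂μ) ≤
      Real.exp (C / 2) * Real.exp (h.Q * R / 2) := by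
    rw [Real.sqrt_le_left (by positivity), setIntegral_const, smul_eq_mul, mul_one,
      ← Real.exp_add, ← Real.exp_nat_mul, Measure.real, measure_bl]
    refine ENNReal.toReal_le_of_le_ofReal (Real.exp_pos _).le ((hC R hR).trans (le_of_eq ?_))
    unfold eo
    congr 2
    push_cast
    ring
  rw [integral_const_mul] at h4
  have h7 : c₀ * Z.p f ≤ A * (Real.exp (C / 2) * Real.exp (h.Q * R / 2) * bb h μ t Z y R) :=
    (mul_le_mul_of_nonneg_right hc (Z.nonneg f)).trans (h3.trans (h4.trans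
      (mul_le_mul_of_nonneg_left (h5.trans (mul_le_mul_of_nonneg_right h6 (Real.sqrt_nonneg _)))
        hA)))
  calc Z.p f = c₀⁻¹ * (c₀ * Z.p f) := by field_simp
    _ ≤ c₀⁻¹ * (A * (Real.exp (C / 2) * Real.exp (h.Q * R / 2) * bb h μ t Z y R)) :=
        mul_le_mul_of_nonneg_left h7 (by positivity)
    _ = _ := by ring

end Vale.Agent.P092RA
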