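import Mathlib

/-!
P092, rank one, block A0 (helper3): seminorms on `C(Y, ℂ)`, Fourier modes and smooth atoms.
-/

set_option linter.all false

open MeasureTheory Filter Topology
open scoped InnerProductSpace SchwartzMap FourierTransform ContDiff

namespace Vale.Agent.P092RA

/-- `e(x) = exp(2 π i x)` -/
noncomputable def ee (x : ℝ) : ℂ := Complex.exp ((2 * Real.pi * x : ℝ) * Complex.I)

theorem norm_ee (x : ℝ) : ‖ee x‖ = 1 := Complex.norm_exp_ofReal_mul_I _

theorem ee_add (x y : ℝ) : ee (x + y) = ee x * ee y := by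
  unfold ee
  rw [← Complex.exp_add]
  congr 1
  push_cast
  ring

theorem ee_zero : ee 0 = 1 := by simp [ee]

theorem contDiff_ee : ContDiff ℝ ∞ ee := by
  unfold ee
  refine Complex.contDiff_exp.comp (ContDiff.mul ?_ contDiff_const)
  exact Complex.ofRealCLM.contDiff.comp (contDiff_const.mul contDiff_id)

@[fun_prop] theorem continuous_ee : Continuous ee := contDiff_ee.continuous

theorem hasDerivAt_ee (x : ℝ) : HasDerivAt ee (2 * Real.pi * Complex.I * ee x) x := by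
  have h1 : HasDerivAt (fun x : ℝ => ((2 * Real.pi * x : ℝ) : ℂ) * Complex.I)
      (((2 * Real.pi : ℝ) : ℂ) * Complex.I) x := by
    have h2 : HasDerivAt (fun x : ℝ => (2 * Real.pi * x : ℝ)) (2 * Real.pi) x := by
      simpa using (hasDerivAt_id x).const_mul (2 * Real.pi)
    exact h2.ofReal_comp.mul_const _
  have h3 := h1.cexp
  unfold ee
  convert h3 using 1
  push_cast
  ring

theorem sq_cs {A B I : ℝ} (hA : 0 ≤ A) (hB : 0 ≤ B)
    (h : ∀ s : ℝ, 0 < s → 2 * I ≤ s * A + B / s) : I ≤ Real.sqrt A * Real.sqrt B := by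
  by_contra hI
  rw [not_le] at hI
  have h0 : 0 ≤ Real.sqrt A * Real.sqrt B := by positivity
  have hI0 : 0 < I := lt_of_le_of_lt h0 hI
  have hAB : A * B < I * I := by
    have e : A * B = (Real.sqrt A * Real.sqrt B) * (Real.sqrt A * Real.sqrt B) := by
      rw [mul_mul_mul_comm, Real.mul_self_sqrt hA, Real.mul_self_sqrt hB]
    rw [e]
    exact mul_self_lt_mul_self h0 hI
  rcases hA.eq_or_lt with hA0 | hA0
  · have h1 := h (B / I + 1) (by positivity)
    rw [← hA0, mul_zero, zero_add, le_div_iff₀ (by positivity)] at h1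
    have e : 2 * I * (B / I + 1) = 2 * B + 2 * I := by field_simp
    linarith
  · have h1 := h (I / A) (by positivity)
    have e : I / A * A + B / (I / A) = I + A * B / I := by field_simp
    rw [e] at h1
    have h2 : A * B / I < I := by rw [div_lt_iff₀ hI0]; exact hAB
    linarith

/-- the weighted Cauchy-Schwarz inequality -/
theorem int_cs {T : Type} [MeasurableSpace T] {μ : Measure T} {k z : T → ℝ} (hk : ∀ τ, 0 ≤ k τ)
    (h1 : Integrable k μ) (h2 : Integrable (fun τ => k τ * z τ ^ 2) μ)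
    (h3 : Integrable (fun τ => k τ * z τ) μ) :
    ∫ τ, k τ * z τ ∂μ ≤ Real.sqrt (∫ τ, k τ ∂μ) * Real.sqrt (∫ τ, k τ * z τ ^ 2 ∂μ) := by
  refine sq_cs (integral_nonneg hk) (integral_nonneg fun τ => mul_nonneg (hk τ) (sq_nonneg _))
    fun s hs => ?_
  rw [← integral_const_mul, ← integral_const_mul, ← integral_div,
    ← integral_add (h1.const_mul _) (h2.div_const _)]
  refine integral_mono (h3.const_mul _) ((h1.const_mul _).add (h2.div_const _)) fun τ => ?_
  have e : s * k τ + k τ * z τ ^ 2 / s - 2 * (k τ * z τ) = k τ * (z τ - s) ^ 2 / s := by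
    field_simp
    ring
  have h4 : 0 ≤ k τ * (z τ - s) ^ 2 / s := by have := hk τ; positivity
  show 2 * (k τ * z τ) ≤ s * k τ + k τ * z τ ^ 2 / s
  linarith

/-- continuous seminorms on `C(Y, ℂ)` with the integral triangle inequality -/
structure SN (Y : Type) [TopologicalSpace Y] [CompactSpace Y] where
  /-- the seminorm -/
  p : C(Y, ℂ) → ℝ
  /-- the bound -/
  B : ℝ
  add : ∀ f g, p (f + g) ≤ p f + p g
  smul : ∀ (c : ℂ) f, p (c • f) = ‖c‖ * p f
  B0 : 0 ≤ B
  le : ∀ f, p f ≤ B * ‖f‖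
  int : ∀ (T : Type) [MeasurableSpace T] (μ : Measure T) (F : T → C(Y, ℂ)), Integrable F μ →
    p (∫ τ, F τ ∂μ) ≤ ∫ τ, p (F τ) ∂μ

variable {Y : Type} [TopologicalSpace Y] [CompactSpace Y]

namespace SN

/-- the seminorm of a bounded operator -/
noncomputable def of {H : Type} [NormedAddCommGroup H] [NormedSpace ℂ H] [CompleteSpace H]
    (Z : C(Y, ℂ) →L[ℂ] H) : SN Y where
  p f := ‖Z f‖
  B := ‖Z‖
  add f g := by rw [map_add]; exact norm_add_le _ _
  smul c f := by rw [map_smul, norm_smul]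
  B0 := norm_nonneg _
  le f := Z.le_opNorm f
  int T _ μ F hF := by
    rw [← Z.integral_comp_comm hF]
    exact norm_integral_le_integral_norm _

/-- composition with a bounded operator -/
noncomputable def comp (Z : SN Y) (A : C(Y, ℂ) →L[ℂ] C(Y, ℂ)) : SN Y where
  p f := Z.p (A f)
  B := Z.B * ‖A‖
  add f g := by rw [map_add]; exact Z.add _ _
  smul c f := by rw [map_smul, Z.smul]
  B0 := mul_nonneg Z.B0 (norm_nonneg _)
  le f := (Z.le _).trans (by
    rw [mul_assoc]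
    exact mul_le_mul_of_nonneg_left (A.le_opNorm f) Z.B0)
  int T _ μ F hF := by
    rw [← A.integral_comp_comm hF]
    exact Z.int T μ _ (A.integrable_comp hF)

variable (Z : SN Y)

theorem zero : Z.p 0 = 0 := by
  have := Z.smul 0 0
  simpa using this

theorem neg (f : C(Y, ℂ)) : Z.p (-f) = Z.p f := by
  have := Z.smul (-1) f
  simpa using this

theorem nonneg (f : C(Y, ℂ)) : 0 ≤ Z.p f := by
  have := Z.add f (-f)
  rw [add_neg_cancel, Z.zero, Z.neg] at this
  linarith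

theorem sub_le (f g : C(Y, ℂ)) : Z.p f - Z.p g ≤ Z.B * ‖f - g‖ := by
  have h1 := Z.add (f - g) g
  rw [sub_add_cancel] at h1
  have h2 := Z.le (f - g)
  linarith

theorem continuous : Continuous Z.p := by
  refine LipschitzWith.continuous (K := ⟨Z.B, Z.B0⟩) (LipschitzWith.of_dist_le_mul fun f g => ?_)
  rw [Real.dist_eq, dist_eq_norm, abs_le]
  have h1 := Z.sub_le f g
  have h2 := Z.sub_le g f
  rw [norm_sub_rev] at h2
  constructor
  · show -(Z.B * _) ≤ _
    linarith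
  · exact h1

theorem sum_le {ι : Type} (s : Finset ι) (f : ι → C(Y, ℂ)) :
    Z.p (∑ i ∈ s, f i) ≤ ∑ i ∈ s, Z.p (f i) :=
  Finset.le_sum_of_subadditive Z.p Z.zero.le Z.add s f

theorem integrable {T : Type} [MeasurableSpace T] {μ : Measure T} {F : T → C(Y, ℂ)}
    (hF : Integrable F μ) : Integrable (fun τ => Z.p (F τ)) μ := by
  refine (hF.norm.const_mul Z.B).mono' (Z.continuous.comp_aestronglyMeasurable hF.1)
    (Eventually.of_forall fun τ => ?_)
  rw [Real.norm_eq_abs, abs_of_nonneg (Z.nonneg _)]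
  exact Z.le _

theorem zi {T : Type} [MeasurableSpace T] {μ : Measure T} {F : T → C(Y, ℂ)}
    (hF : Integrable F μ) {f : C(Y, ℂ)} (hf : ∀ ξ, f ξ = ∫ τ, F τ ξ ∂μ) :
    Z.p f ≤ ∫ τ, Z.p (F τ) ∂μ := by
  have e : f = ∫ τ, F τ ∂μ := by
    ext ξ
    rw [hf ξ]
    exact (ContinuousMap.evalCLM ℂ ξ).integral_comp_comm hF
  rw [e]
  exact Z.int T μ F hF

end SN

section Four

variable {F : Type} [NormedAddCommGroup F] [InnerProductSpace ℝ F] [FiniteDimensional ℝ F]
  [MeasurableSpace F] [BorelSpace F]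

theorem int_wt {c : F → ℂ} (hc : Continuous c)
    (hd : ∀ m : ℕ, ∃ C : ℝ, ∀ σ, (1 + ‖σ‖) ^ m * ‖c σ‖ ≤ C) (m : ℕ) :
    Integrable (fun σ => (1 + ‖σ‖) ^ m * ‖c σ‖) := by
  obtain ⟨C, hC⟩ := hd (m + (Module.finrank ℝ F + 1))
  have h1 : Integrable (fun σ : F => (1 + ‖σ‖) ^ (-((Module.finrank ℝ F + 1 : ℕ) : ℝ))) :=
    integrable_one_add_norm (by push_cast; linarith)
  refine (h1.const_mul C).mono' (Continuous.aestronglyMeasurable (by fun_prop))
    (Eventually.of_forall fun σ => ?_)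
  have h2 : 0 < 1 + ‖σ‖ := by positivity
  rw [Real.norm_eq_abs, abs_of_nonneg (by positivity), Real.rpow_neg h2.le, Real.rpow_natCast,
    ← div_eq_mul_inv, le_div_iff₀ (by positivity)]
  have := hC σ
  rw [pow_add] at this
  linarith

/-- smooth functions are superpositions of exponentials on balls -/
theorem exists_rep {Φ : F → ℂ} (hΦ : ContDiff ℝ ∞ Φ) (R : ℝ) : ∃ c : F → ℂ, Continuous c ∧
    (∀ m : ℕ, ∃ C : ℝ, ∀ σ, (1 + ‖σ‖) ^ m * ‖c σ‖ ≤ C) ∧
    ∀ x, ‖x‖ ≤ R → Φ x = ∫ σ, c σ * ee ⟪σ, x⟫_ℝ := by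
  let χ : ContDiffBump (0 : F) := ⟨|R| + 1, |R| + 2, by positivity, by linarith⟩
  have h1 : ContDiff ℝ ∞ fun x => (χ x : ℂ) * Φ x :=
    (Complex.ofRealCLM.contDiff.comp χ.contDiff).mul hΦ
  have h2 : HasCompactSupport fun x => (χ x : ℂ) * Φ x :=
    HasCompactSupport.mul_right (χ.hasCompactSupport.comp_left (g := fun r : ℝ => (r : ℂ)) rfl)
  let f : 𝓢(F, ℂ) := h2.toSchwartzMap h1
  refine ⟨(𝓕 f : 𝓢(F, ℂ)), (𝓕 f : 𝓢(F, ℂ)).continuous, fun m => ?_, fun x hx => ?_⟩
  · have := SchwartzMap.one_add_le_sup_seminorm_apply (𝕜 := ℝ) (m := (m, 0)) (k := m) (n := 0)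
      le_rfl le_rfl (𝓕 f : 𝓢(F, ℂ))
    simp only [norm_iteratedFDeriv_zero] at this
    exact ⟨_, this⟩
  · have h3 := f.continuous.fourierInv_fourier_eq f.integrable (𝓕 f : 𝓢(F, ℂ)).integrable
    have h4 := congrFun h3 x
    rw [Real.fourierInv_eq'] at h4
    have h5 : f x = Φ x := by
      show (χ x : ℂ) * Φ x = Φ x
      rw [χ.one_of_mem_closedBall (by
        rw [mem_closedBall_zero_iff]
        exact hx.trans ((le_abs_self R).trans (by show |R| ≤ |R| + 1; linarith))),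
        Complex.ofReal_one, one_mul]
    rw [← h5, ← h4]
    refine integral_congr_ae (Eventually.of_forall fun σ => ?_)
    show _ • _ = _
    rw [smul_eq_mul, mul_comm]
    rfl

/-- the weight on the frequencies -/
noncomputable def wt (M : ℕ) (η : F) : ℝ := ((1 + ‖η‖) ^ M)⁻¹

theorem wt_pos (M : ℕ) (η : F) : 0 < wt M η := by unfold wt; positivity

theorem continuous_wt (M : ℕ) : Continuous (wt M : F → ℝ) := by
  unfold wt
  exact Continuous.inv₀ (by fun_prop) fun η => by positivity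

theorem integrable_wt {M P : ℕ} (hM : Module.finrank ℝ F + P < M) :
    Integrable (fun η : F => (1 + ‖η‖) ^ P * wt M η) := by
  have h1 : Integrable (fun σ : F => (1 + ‖σ‖) ^ (-((M - P : ℕ) : ℝ))) :=
    integrable_one_add_norm (by exact_mod_cast (by omega : Module.finrank ℝ F < M - P))
  refine h1.congr (Eventually.of_forall fun σ => ?_)
  have h2 : 0 < 1 + ‖σ‖ := by positivity
  show (1 + ‖σ‖) ^ (-((M - P : ℕ) : ℝ)) = (1 + ‖σ‖) ^ P * ((1 + ‖σ‖) ^ M)⁻¹
  rw [Real.rpow_neg h2.le, Real.rpow_natCast, show M = P + (M - P) by omega, pow_add,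
    show P + (M - P) - P = M - P by omega]
  field_simp

/-- the Fourier modes -/
noncomputable def em (du : C(Y, F)) (η : F) : C(Y, ℂ) :=
  ⟨fun ξ => ee ⟪η, du ξ⟫_ℝ, by fun_prop⟩

theorem em_apply (du : C(Y, F)) (η : F) (ξ : Y) : em du η ξ = ee ⟪η, du ξ⟫_ℝ := rfl

theorem continuous_em (du : C(Y, F)) : Continuous (em du) :=
  ContinuousMap.continuous_of_continuous_uncurry _ (by
    show Continuous fun q : F × Y => ee ⟪q.1, du q.2⟫_ℝ
    fun_prop)

theorem norm_em_le (du : C(Y, F)) (η : F) : ‖em du η‖ ≤ 1 :=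
  (ContinuousMap.norm_le _ zero_le_one).2 fun ξ => (norm_ee _).le

/-- the negative Sobolev norm -/
noncomputable def qq (du : C(Y, F)) (M : ℕ) (Z : SN Y) : ℝ :=
  ∫ η, Z.p (em du η) ^ 2 * wt M η

theorem qq_nonneg (du : C(Y, F)) (M : ℕ) (Z : SN Y) : 0 ≤ qq du M Z :=
  integral_nonneg fun η => mul_nonneg (sq_nonneg _) (wt_pos M η).le

theorem p_em_le (du : C(Y, F)) (Z : SN Y) (η : F) : Z.p (em du η) ≤ Z.B :=
  (Z.le _).trans (mul_le_of_le_one_right Z.B0 (norm_em_le du η))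

theorem integrable_qq (du : C(Y, F)) {M : ℕ} (hM : Module.finrank ℝ F < M) (Z : SN Y) :
    Integrable (fun η => Z.p (em du η) ^ 2 * wt M η) := by
  have h1 := (integrable_wt (F := F) (M := M) (P := 0) (by omega)).const_mul (Z.B ^ 2)
  refine h1.mono' (Continuous.aestronglyMeasurable
    (((Z.continuous.comp (continuous_em du)).pow 2).mul (continuous_wt M)))
    (Eventually.of_forall fun η => ?_)
  rw [Real.norm_eq_abs, abs_of_nonneg (mul_nonneg (sq_nonneg _) (wt_pos M η).le), pow_zero, one_mul]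
  exact mul_le_mul_of_nonneg_right (pow_le_pow_left₀ (Z.nonneg _) (p_em_le du Z η) 2)
    (wt_pos M η).le

theorem peetre (η η' : F) : 1 + ‖η + η'‖ ≤ (1 + ‖η‖) * (1 + ‖η'‖) := by
  have := norm_add_le η η'
  have h2 := mul_nonneg (norm_nonneg η) (norm_nonneg η')
  nlinarith

/-- single modes are controlled by the negative Sobolev norm -/
theorem mode_le {M : ℕ} (hM : Module.finrank ℝ F < M) : ∃ C : ℝ, 0 ≤ C ∧ ∀ du : C(Y, F),
    (∀ ξ, ‖du ξ‖ ≤ 1) → ∀ (Z : SN Y) (η : F),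
      Z.p (em du η) ≤ C * (1 + ‖η‖) ^ M * Real.sqrt (qq du M Z) := by
  obtain ⟨c, hc, hd, hr⟩ := exists_rep (F := F) (Φ := fun _ => (1 : ℂ)) contDiff_const 1
  obtain ⟨C, hC⟩ := hd M
  have hC0 : 0 ≤ C := le_trans (by positivity) (hC 0)
  have hi : Integrable (fun σ => ‖c σ‖) := by simpa using int_wt hc hd 0
  refine ⟨Real.sqrt (∫ σ, ‖c σ‖) * Real.sqrt C, by positivity, fun du hdu Z η => ?_⟩
  have hcont : Continuous fun σ => c σ • em du (σ + η) :=
    hc.smul ((continuous_em du).comp (by fun_prop))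
  have hF : Integrable (fun σ => c σ • em du (σ + η)) := by
    refine hi.mono' hcont.aestronglyMeasurable (Eventually.of_forall fun σ => ?_)
    rw [norm_smul]
    exact mul_le_of_le_one_right (norm_nonneg _) (norm_em_le _ _)
  have h1 : Z.p (em du η) ≤ ∫ σ, Z.p (c σ • em du (σ + η)) := Z.zi hF fun ξ => by
    have := hr (du ξ) (hdu ξ)
    calc em du η ξ = (∫ σ, c σ * ee ⟪σ, du ξ⟫_ℝ) * ee ⟪η, du ξ⟫_ℝ := by
          rw [← this, one_mul, em_apply]
      _ = _ := by
          rw [← integral_mul_const]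
          refine integral_congr_ae (Eventually.of_forall fun σ => ?_)
          show c σ * ee ⟪σ, du ξ⟫_ℝ * ee ⟪η, du ξ⟫_ℝ = c σ * ee ⟪σ + η, du ξ⟫_ℝ
          rw [inner_add_left, ee_add, mul_assoc]
  simp only [Z.smul] at h1
  have hz : Continuous fun σ => Z.p (em du (σ + η)) :=
    Z.continuous.comp ((continuous_em du).comp (by fun_prop))
  have hq := (integrable_qq du hM Z).comp_add_right η
  have hb : ∀ σ, ‖c σ‖ * Z.p (em du (σ + η)) ^ 2 ≤
      C * (1 + ‖η‖) ^ M * (Z.p (em du (σ + η)) ^ 2 * wt M (σ + η)) := fun σ => by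
    have h3 : ‖c σ‖ ≤ C * (1 + ‖η‖) ^ M * wt M (σ + η) := by
      unfold wt
      rw [← div_eq_mul_inv, le_div_iff₀ (by positivity)]
      calc ‖c σ‖ * (1 + ‖σ + η‖) ^ M ≤ ‖c σ‖ * ((1 + ‖σ‖) * (1 + ‖η‖)) ^ M :=
            mul_le_mul_of_nonneg_left (pow_le_pow_left₀ (by positivity) (peetre σ η) M)
              (norm_nonneg _)
        _ = ((1 + ‖σ‖) ^ M * ‖c σ‖) * (1 + ‖η‖) ^ M := by rw [mul_pow]; ring
        _ ≤ _ := mul_le_mul_of_nonneg_right (hC σ) (by positivity)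
    calc _ ≤ (C * (1 + ‖η‖) ^ M * wt M (σ + η)) * Z.p (em du (σ + η)) ^ 2 :=
          mul_le_mul_of_nonneg_right h3 (sq_nonneg _)
      _ = _ := by ring
  have h2i : Integrable (fun σ => ‖c σ‖ * Z.p (em du (σ + η)) ^ 2) := by
    refine (hq.const_mul (C * (1 + ‖η‖) ^ M)).mono'
      (Continuous.aestronglyMeasurable (hc.norm.mul (hz.pow 2))) (Eventually.of_forall fun σ => ?_)
    rw [Real.norm_eq_abs, abs_of_nonneg (by positivity)]
    exact hb σ
  have h3i : Integrable (fun σ => ‖c σ‖ * Z.p (em du (σ + η))) := by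
    simpa only [Z.smul] using Z.integrable hF
  have h2 := int_cs (fun σ => norm_nonneg (c σ)) hi h2i h3i
  have h4 : ∫ σ, ‖c σ‖ * Z.p (em du (σ + η)) ^ 2 ≤ C * (1 + ‖η‖) ^ M * qq du M Z := by
    refine (integral_mono h2i (hq.const_mul _) hb).trans (le_of_eq ?_)
    rw [integral_const_mul]
    congr 1
    exact integral_add_right_eq_self (fun η => Z.p (em du η) ^ 2 * wt M η) η
  have h5 : 1 ≤ (1 + ‖η‖) ^ M := one_le_pow₀ (by linarith [norm_nonneg η])
  have h6 : Real.sqrt (C * (1 + ‖η‖) ^ M * qq du M Z) ≤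
      Real.sqrt C * (1 + ‖η‖) ^ M * Real.sqrt (qq du M Z) := by
    rw [Real.sqrt_mul (by positivity), Real.sqrt_mul hC0]
    refine mul_le_mul_of_nonneg_right (mul_le_mul_of_nonneg_left ?_ (Real.sqrt_nonneg _))
      (Real.sqrt_nonneg _)
    rw [Real.sqrt_le_left (by positivity)]
    nlinarith
  calc _ ≤ _ := h1
    _ ≤ _ := h2
    _ ≤ Real.sqrt (∫ σ, ‖c σ‖) * (Real.sqrt C * (1 + ‖η‖) ^ M * Real.sqrt (qq du M Z)) :=
        mul_le_mul_of_nonneg_left ((Real.sqrt_le_sqrt h4).trans h6) (Real.sqrt_nonneg _)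
    _ = _ := by ring

/-- **smooth functions of bounded linear data are controlled by the negative Sobolev norm** -/
theorem atom {M : ℕ} (hM : Module.finrank ℝ F < M) {k : ℕ} {Φ : (Fin k → ℝ) → ℂ}
    (hΦ : ContDiff ℝ ∞ Φ) (Λ : ℝ) : ∃ C : ℝ, 0 ≤ C ∧ ∀ du : C(Y, F), (∀ ξ, ‖du ξ‖ ≤ 1) →
      ∀ (Z : SN Y) (a : Fin k → ℝ) (l : Fin k → F), (∀ i, |a i| ≤ Λ) → (∀ i, ‖l i‖ ≤ Λ) →
        ∀ f : C(Y, ℂ), (∀ ξ, f ξ = Φ fun i => a i + ⟪l i, du ξ⟫_ℝ) →
          Z.p f ≤ C * Real.sqrt (qq du M Z) := by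
  obtain ⟨C, hC0, hC⟩ := mode_le (Y := Y) (F := F) hM
  have hΦ' : ContDiff ℝ ∞ fun x : EuclideanSpace ℝ (Fin k) => Φ x.ofLp :=
    hΦ.comp (EuclideanSpace.equiv (Fin k) ℝ).contDiff
  obtain ⟨c, hc, hd, hr⟩ := exists_rep hΦ' (k * (2 * |Λ|))
  have hi := int_wt hc hd M
  refine ⟨C * (1 + k * |Λ|) ^ M * ∫ σ, (1 + ‖σ‖) ^ M * ‖c σ‖,
    mul_nonneg (by positivity) (integral_nonneg fun σ => by positivity),
    fun du hdu Z a l ha hl f hf => ?_⟩
  let L : EuclideanSpace ℝ (Fin k) → F := fun σ => ∑ i, σ i • l i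
  let A : EuclideanSpace ℝ (Fin k) → ℝ := fun σ => ∑ i, σ i * a i
  have hL : Continuous L := by fun_prop
  have hA : Continuous A := by fun_prop
  have hLn : ∀ σ, ‖L σ‖ ≤ k * |Λ| * ‖σ‖ := fun σ => by
    calc ‖L σ‖ ≤ ∑ i, ‖σ i • l i‖ := norm_sum_le _ _
      _ ≤ ∑ _i : Fin k, |Λ| * ‖σ‖ := Finset.sum_le_sum fun i _ => by
          rw [norm_smul, mul_comm]
          exact mul_le_mul ((hl i).trans (le_abs_self _)) (PiLp.norm_apply_le σ i)
            (norm_nonneg _) (abs_nonneg _)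
      _ = _ := by simp [mul_assoc]
  have hi0 : Integrable (fun σ => ‖c σ‖) := by simpa using int_wt hc hd 0
  have hcont : Continuous fun σ => (c σ * ee (A σ)) • em du (L σ) :=
    (hc.mul (continuous_ee.comp hA)).smul ((continuous_em du).comp hL)
  have hF : Integrable (fun σ => (c σ * ee (A σ)) • em du (L σ)) := by
    refine hi0.mono' hcont.aestronglyMeasurable (Eventually.of_forall fun σ => ?_)
    rw [norm_smul, norm_mul, norm_ee, mul_one]
    exact mul_le_of_le_one_right (norm_nonneg _) (norm_em_le _ _)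
  have h1 : Z.p f ≤ ∫ σ, Z.p ((c σ * ee (A σ)) • em du (L σ)) := Z.zi hF fun ξ => by
    have h2 := hr (WithLp.toLp 2 fun i => a i + ⟪l i, du ξ⟫_ℝ) (by
      have h3 : ∀ i, |a i + ⟪l i, du ξ⟫_ℝ| ≤ 2 * |Λ| := fun i => by
        have h4 := abs_real_inner_le_norm (l i) (du ξ)
        have h5 : ‖l i‖ * ‖du ξ‖ ≤ |Λ| :=
          (mul_le_of_le_one_right (norm_nonneg _) (hdu ξ)).trans ((hl i).trans (le_abs_self _))
        have h6 := (ha i).trans (le_abs_self _)
        have h7 := abs_add_le (a i) ⟪l i, du ξ⟫_ℝ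
        linarith
      calc _ = ‖∑ i, EuclideanSpace.single i (a i + ⟪l i, du ξ⟫_ℝ)‖ := by
            congr 1
            ext j
            simp [Pi.single_apply]
        _ ≤ ∑ i, ‖EuclideanSpace.single i (a i + ⟪l i, du ξ⟫_ℝ)‖ := norm_sum_le _ _
        _ ≤ ∑ _i : Fin k, 2 * |Λ| := Finset.sum_le_sum fun i _ => by
            rw [EuclideanSpace.norm_single]
            exact h3 i
        _ = _ := by simp)
    rw [hf ξ]
    refine h2.trans (integral_congr_ae (Eventually.of_forall fun σ => ?_))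
    show c σ * _ = c σ * ee (A σ) * ee ⟪L σ, du ξ⟫_ℝ
    rw [mul_assoc, ← ee_add]
    congr 2
    simp only [A, L, sum_inner, real_inner_smul_left, ← Finset.sum_add_distrib, PiLp.inner_apply]
    refine Finset.sum_congr rfl fun i _ => ?_
    simp only [RCLike.inner_apply, conj_trivial]
    ring
  refine h1.trans ?_
  have h2 : ∀ σ, Z.p ((c σ * ee (A σ)) • em du (L σ)) ≤
      (C * (1 + k * |Λ|) ^ M * Real.sqrt (qq du M Z)) * ((1 + ‖σ‖) ^ M * ‖c σ‖) := fun σ => by
    rw [Z.smul, norm_mul, norm_ee, mul_one]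
    have h3 : (1 + ‖L σ‖) ^ M ≤ (1 + k * |Λ|) ^ M * (1 + ‖σ‖) ^ M := by
      rw [← mul_pow]
      refine pow_le_pow_left₀ (by positivity) ?_ M
      have h4 := hLn σ
      have h5 : 0 ≤ k * |Λ| := by positivity
      have h6 := norm_nonneg σ
      nlinarith
    calc _ ≤ ‖c σ‖ * (C * (1 + ‖L σ‖) ^ M * Real.sqrt (qq du M Z)) :=
          mul_le_mul_of_nonneg_left (hC du hdu Z _) (norm_nonneg _)
      _ ≤ ‖c σ‖ * (C * ((1 + k * |Λ|) ^ M * (1 + ‖σ‖) ^ M) * Real.sqrt (qq du M Z)) := by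
          gcongr
      _ = _ := by ring
  refine (integral_mono (Z.integrable hF) (hi.const_mul _) h2).trans (le_of_eq ?_)
  rw [integral_const_mul]
  ring

end Four

end Vale.Agent.P092RA
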