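import Vale.Agent.P092RG.Quo

/-!
P092, rank one, block A0 (helper3): the linear model of the boundary.
-/

set_option linter.all false

open Matrix Filter Topology
open scoped InnerProductSpace

namespace Vale.Agent.P092RA

open Vale.Agent.P092.H793.Re Vale.Agent.P092RG

attribute [local instance] Matrix.linftyOpNormedRing Matrix.linftyOpNormedAlgebra

variable {n : ℕ} {G : Type} [Group G] [TopologicalSpace G]
variable {ρ : G →* SLn n} {w : Fin n → ℝ}

/-- the Euclidean space of matrices -/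
abbrev EE (n : ℕ) : Type := EuclideanSpace ℝ (Fin n × Fin n)

/-- a matrix as a vector -/
def vec (A : Mat n) : EE n := WithLp.toLp 2 fun p => A p.1 p.2

/-- a vector as a matrix -/
def mat (η : EE n) : Mat n := Matrix.of fun a b => η (a, b)

theorem vec_mat (η : EE n) : vec (mat η) = η := rfl

theorem mat_vec (A : Mat n) : mat (vec A) = A := rfl

theorem vec_add (A B : Mat n) : vec (A + B) = vec A + vec B := rfl

theorem vec_sub (A B : Mat n) : vec (A - B) = vec A - vec B := rfl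

theorem vec_smul (c : ℝ) (A : Mat n) : vec (c • A) = c • vec A := rfl

theorem inner_vec (A B : Mat n) : ⟪vec A, vec B⟫_ℝ = ip A B := by
  rw [ip_eq, PiLp.inner_apply, Fintype.sum_prod_type]
  refine Finset.sum_congr rfl fun a _ => Finset.sum_congr rfl fun b _ => ?_
  simp only [RCLike.inner_apply, conj_trivial]
  exact mul_comm _ _

theorem norm_vec_sq (A : Mat n) : ‖vec A‖ ^ 2 = ip A A := by
  rw [← inner_vec, real_inner_self_eq_norm_sq]

theorem norm_vec_le {A : Mat n} {c : ℝ} (hc : 0 ≤ c) (h : ip A A ≤ c ^ 2) : ‖vec A‖ ≤ c := by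
  rw [← norm_vec_sq] at h
  exact (pow_le_pow_iff_left₀ (norm_nonneg _) hc two_ne_zero).1 h

theorem continuous_vec : Continuous (vec : Mat n → EE n) := by
  unfold vec
  fun_prop

theorem norm_vec_ort {k : Mat n} (hk : kᵀ * k = 1) (A : Mat n) :
    ‖vec (k * A * kᵀ)‖ = ‖vec A‖ := by
  have := ip_ort hk A A
  rw [← norm_vec_sq, ← norm_vec_sq] at this
  exact (pow_left_inj₀ (norm_nonneg _) (norm_nonneg _) two_ne_zero).1 this

theorem trace_eq_ip (A : Mat n) : A.trace = ip 1 A := by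
  rw [ip_comm]
  unfold ip
  rw [transpose_one, Matrix.mul_one]

theorem norm_vec_one : ‖vec (1 : Mat n)‖ ≤ n := by
  refine norm_vec_le (Nat.cast_nonneg n) ?_
  rw [← trace_eq_ip, trace_one, Fintype.card_fin]
  exact_mod_cast Nat.le_self_pow two_ne_zero n

theorem abs_trace_le (A : Mat n) : |A.trace| ≤ n * ‖vec A‖ := by
  rw [trace_eq_ip, ← inner_vec]
  exact (abs_real_inner_le_norm _ _).trans
    (mul_le_mul_of_nonneg_right norm_vec_one (norm_nonneg _))

/-- matrices with integral weights -/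
def IntA (w : Fin n → ℝ) : Subalgebra ℝ (Mat n) where
  carrier := {A | ∀ a b, A a b ≠ 0 → ∃ z : ℤ, w a - w b = z}
  add_mem' := fun hA hB a b h => (add_ne h).elim (hA a b) (hB a b)
  mul_mem' := fun hA hB a b h => by
    obtain ⟨c, h1, h2⟩ := mul_ne h
    obtain ⟨z, hz⟩ := hA a c h1
    obtain ⟨z', hz'⟩ := hB c b h2
    exact ⟨z + z', by push_cast; linarith⟩
  algebraMap_mem' := fun r a b h => by
    by_cases e : a = b
    · exact ⟨0, by rw [e]; simp⟩
    · exact absurd (by rw [Matrix.algebraMap_matrix_apply, if_neg e]) h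

theorem isClosed_IntA : IsClosed (IntA w : Set (Mat n)) := by
  have e : (IntA w : Set (Mat n)) = ⋂ a, ⋂ b, {A | A a b ≠ 0 → ∃ z : ℤ, w a - w b = z} := by
    ext A
    simp only [Set.mem_iInter]
    rfl
  rw [e]
  refine isClosed_iInter fun a => isClosed_iInter fun b => ?_
  by_cases hz : ∃ z : ℤ, w a - w b = z
  · convert isClosed_univ using 1
    exact Set.eq_univ_of_forall fun A _ => hz
  · have e2 : {A : Mat n | A a b ≠ 0 → ∃ z : ℤ, w a - w b = z} = {A | A a b = 0} := by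
      ext A
      exact ⟨fun h => by_contra fun h0 => hz (h h0), fun h h0 => absurd h h0⟩
    rw [e2]
    exact isClosed_eq (continuous_id.matrix_elem a b) continuous_const

theorem wt_int {j : ℤ} {X : Mat n} (hX : Wt w j X) : X ∈ IntA w := fun a b h => ⟨j, hX a b h⟩

variable (h : R1 ρ w)
include h

theorem N_int {u : G} (hu : u ∈ h.N) : (ρ u).1 ∈ IntA w := by
  have h1 := h.nX_mem u
  have h2 := h.nZ_mem u
  rw [← h.N_eq hu, ex_val (h.lie_add' h1.1 h2.1)]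
  refine NormedSpace.exp_mem (R := ℝ) isClosed_IntA (add_mem ?_ ?_)
  · exact wt_int (j := 1) (h1.2.cast (by norm_num))
  · exact wt_int (j := 2) (h2.2.cast (by norm_num))

theorem half_le_lam : 1 ≤ 2 * h.lam := by
  obtain ⟨X, -, h0, hX⟩ := h.one
  obtain ⟨a, b, hab⟩ : ∃ a b, X a b ≠ 0 := by
    by_contra hc
    exact h0 (Matrix.ext fun a b => by_contra fun h1 => hc ⟨a, b, h1⟩)
  have h1 := hX a b hab
  have h2 := h.le_lam a
  have h3 := h.neg_lam_le b
  linarith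

theorem one_le_dt : 1 ≤ h.dt := by
  obtain ⟨a, ha⟩ := h.exists_top
  show 1 ≤ (pj w h.lam).trace
  unfold pj
  rw [trace_diagonal]
  refine le_trans (le_of_eq ?_) (Finset.single_le_sum (f := fun a => if w a = h.lam then (1 : ℝ)
    else 0) (fun i _ => by split_ifs <;> norm_num) (Finset.mem_univ a))
  rw [if_pos ha]

theorem top_of_Pt {B : Mat n} {a b : Fin n} (h0 : (h.Pt * B) a b ≠ 0) : w a = h.lam := by
  by_contra h1
  exact h0 (by unfold R1.Pt; rw [pj_mul_apply, if_neg h1])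

/-- the weights of the cone have a gap below the top -/
theorem gap (g : G) {a b : Fin n} (h0 : ((ρ g).1 * h.Pt) a b ≠ 0) :
    w a = h.lam ∨ w a ≤ h.lam - 1 := by
  rcases h.bruhat (h.w0⁻¹ * g) with hp | ⟨u, hu, p, hp, e⟩
  · have e : g = h.w0 * (h.w0⁻¹ * g) := by group
    rw [e, vmul, Matrix.mul_assoc, h.up_Pt hp] at h0
    obtain ⟨c, h1, h2⟩ := mul_ne h0
    have h3 := h.w0_apply h1
    have h4 := top_of_Pt h h2
    have h5 := half_le_lam h
    right
    linarith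
  · have e' : g = h.w0 * u * h.w0⁻¹ * (h.w0 * h.w0 * p) := by
      calc g = h.w0 * (h.w0⁻¹ * g) := by group
        _ = _ := by rw [e]; group
    rw [e', vmul, Matrix.mul_assoc, h.up_Pt (h.P.mul_mem (h.M_le_P h.w0_sq) hp)] at h0
    obtain ⟨c, h1, h2⟩ := mul_ne h0
    have h4 := top_of_Pt h h2
    rw [vmul, vmul] at h1
    obtain ⟨d, h5, h6⟩ := mul_ne h1
    obtain ⟨d', h7, h8⟩ := mul_ne h5
    rw [h.K_inv h.w0_mem, transpose_apply] at h6
    have h9 := h.w0_apply h6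
    have h10 := h.w0_apply h7
    obtain ⟨z, hz⟩ := N_int h hu d' d h8
    have h11 := h.le_lam a
    have h12 : (0 : ℝ) ≤ z := by linarith
    have h13 : (0 : ℤ) ≤ z := by exact_mod_cast h12
    rcases h13.eq_or_lt with h14 | h14
    · left
      rw [← h14] at hz
      push_cast at hz
      linarith
    · right
      have h15 : (1 : ℝ) ≤ z := by exact_mod_cast h14
      linarith

/-- the point of the cone -/
noncomputable def zz (g : G) : Mat n := (ρ g).1 * h.Pt * (ρ g).1ᵀ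

theorem zz_eq (g : G) : zz h g = ((ρ g).1 * h.Pt) * ((ρ g).1 * h.Pt)ᵀ := by
  unfold zz
  rw [transpose_mul, h.Pt_tr, Matrix.mul_assoc ((ρ g).1) h.Pt (h.Pt * _), ← Matrix.mul_assoc h.Pt,
    h.Pt_Pt, Matrix.mul_assoc]

theorem zz_mul (g g' : G) : zz h (g * g') = (ρ g).1 * zz h g' * (ρ g).1ᵀ := by
  unfold zz
  rw [vmul, transpose_mul]
  simp only [Matrix.mul_assoc]

theorem zz_tr (g : G) : (zz h g)ᵀ = zz h g := by
  rw [zz_eq, transpose_mul, transpose_transpose]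

theorem trace_zz (g : G) : (zz h g).trace = Real.exp (2 * h.lam * h.hs g) * h.dt := by
  rw [zz_eq, ← h.ip_val_Pt]
  rfl

theorem zz_M {m : G} (hm : m ∈ h.M) : zz h m = h.Pt := by
  unfold zz
  rw [h.L_Pt (h.M_le_L hm), Matrix.mul_assoc, h.K_mul_tr (h.M_le_K hm), Matrix.mul_one]

theorem zz_P {p : G} (hp : p ∈ h.P) : zz h p = Real.exp (2 * h.lam * h.hs p) • h.Pt := by
  obtain ⟨m, hm, s, u, hu, rfl⟩ := h.P_decomp' hp
  have e : (ρ (m * h.a s * u)).1 * h.Pt = Real.exp (s * h.lam) • ((ρ m).1 * h.Pt) := by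
    rw [vmul, Matrix.mul_assoc, h.N_Pt hu, vmul, Matrix.mul_assoc, h.a_Pt, Matrix.mul_smul]
  rw [h.hs_kan (h.M_le_K hm) s hu, zz_eq, e, transpose_smul, Matrix.smul_mul, Matrix.mul_smul,
    smul_smul, ← Real.exp_add, ← zz_eq, zz_M h hm]
  congr 2
  ring

/-- the top block of a point of the cone is scalar -/
theorem top_zz (g : G) : ∃ c : ℝ, h.Pt * zz h g * h.Pt = c • h.Pt := by
  have e0 : h.Pt * zz h g * h.Pt = (h.Pt * (ρ g).1 * h.Pt) * (h.Pt * (ρ g).1 * h.Pt)ᵀ := by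
    rw [zz_eq, transpose_mul (h.Pt * _), transpose_mul h.Pt, transpose_mul, h.Pt_tr]
    simp only [Matrix.mul_assoc]
  have e1 : h.Pt * (ρ g).1 * h.Pt = (ρ h.w0).1 * (h.Pb * (ρ (h.w0⁻¹ * g)).1 * h.Pt) := by
    conv_lhs => rw [show g = h.w0 * (h.w0⁻¹ * g) by group, vmul, ← Matrix.mul_assoc, ← h.w0_Pb]
    simp only [Matrix.mul_assoc]
  rw [e0, e1]
  rcases h.bruhat' (h.w0⁻¹ * g) with hp | ⟨u, hu, s, m, hm, u', hu', e⟩
  · exact ⟨0, by rw [h.Pb_P_Pt hp, Matrix.mul_zero, Matrix.zero_mul, zero_smul]⟩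
  · have e2 : h.Pb * (ρ (h.w0⁻¹ * g)).1 * h.Pt =
        Real.exp (s * h.lam) • ((ρ h.w0).1 * ((ρ m).1 * h.Pt)) := by
      rw [e, vmul, vmul, vmul, vmul]
      calc _ = (h.Pb * (ρ u).1) * (ρ h.w0).1 * (ρ (h.a s)).1 * (ρ m).1 * ((ρ u').1 * h.Pt) := by
            simp only [Matrix.mul_assoc]
        _ = (ρ h.w0).1 * (h.Pt * (ρ (h.a s)).1) * ((ρ m).1 * h.Pt) := by
            rw [h.Pb_N hu, h.N_Pt hu', ← h.w0_Pt]
            simp only [Matrix.mul_assoc]
        _ = Real.exp (s * h.lam) • ((ρ h.w0).1 * (h.Pt * (ρ m).1 * h.Pt)) := by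
            rw [h.Pt_a, Matrix.mul_smul, Matrix.smul_mul]
            simp only [Matrix.mul_assoc]
        _ = _ := by rw [← h.L_Pt (h.M_le_L hm), Matrix.mul_assoc (ρ m).1, h.Pt_Pt]
    refine ⟨Real.exp (s * h.lam) * Real.exp (s * h.lam), ?_⟩
    rw [e2, Matrix.mul_smul, transpose_smul, Matrix.smul_mul, Matrix.mul_smul, smul_smul,
      ← Matrix.mul_assoc, ← Matrix.mul_assoc, ← vmul, ← vmul, ← zz_eq,
      zz_M h (h.M.mul_mem h.w0_sq hm)]

/-- the normalised point of the cone -/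
noncomputable def dm (g : G) : Mat n := (Real.exp (2 * h.lam * h.hs g) * h.dt)⁻¹ • zz h g

theorem dm_mul (g g' : G) : Real.exp (2 * h.lam * (h.hs (g * g') - h.hs g')) • dm h (g * g') =
    (ρ g).1 * dm h g' * (ρ g).1ᵀ := by
  unfold dm
  rw [zz_mul, Matrix.mul_smul, Matrix.smul_mul, smul_smul]
  congr 1
  have := h.dt_pos
  rw [mul_sub, Real.exp_sub]
  field_simp

theorem dm_P (g : G) {p : G} (hp : p ∈ h.P) : dm h (g * p) = dm h g := by
  unfold dm
  rw [zz_mul, zz_P h hp, Matrix.mul_smul, Matrix.smul_mul, smul_smul, h.hs_mul_P g hp]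
  congr 1
  have := h.dt_pos
  rw [mul_add, Real.exp_add]
  field_simp

theorem continuous_dm : Continuous (dm h) := by
  have h1 := h.continuous_val
  have h2 := h.continuous_hs
  have h3 := h.dt_pos
  unfold dm zz
  exact (((Real.continuous_exp.comp (continuous_const.mul h2)).mul continuous_const).inv₀
    fun g => (mul_pos (Real.exp_pos _) h3).ne').smul
    ((h1.matrix_mul continuous_const).matrix_mul h1.matrix_transpose)

/-- the boundary as a set of matrices -/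
noncomputable def dU (ξ : h.Y) : Mat n := Quotient.liftOn' ξ (dm h) fun a b e => by
  obtain ⟨x, hx, rfl⟩ := R1.rel_elim e
  exact (dm_P h a hx).symm

theorem dU_mk (g : G) : dU h (g : h.Y) = dm h g := rfl

theorem continuous_dU : Continuous (dU h) := by
  haveI := topGroup h.rs.emb
  exact R1.continuous_quo (continuous_dm h)

/-- **the linear model of the boundary** -/
noncomputable def du : C(h.Y, EE n) := ⟨fun ξ => vec (dU h ξ), continuous_vec.comp (continuous_dU h)⟩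

theorem du_apply (ξ : h.Y) : du h ξ = vec (dU h ξ) := rfl

theorem co_mk' (g x : G) : h.co g (x : h.Y) = h.hs (g * x) - h.hs x := by
  rw [h.co_mk, h.hs_mul g x]
  ring

theorem dU_smul (g : G) (ξ : h.Y) : Real.exp (2 * h.lam * h.co g ξ) • dU h (g • ξ) =
    (ρ g).1 * dU h ξ * (ρ g).1ᵀ := by
  obtain ⟨x, rfl⟩ := QuotientGroup.mk_surjective ξ
  rw [co_mk', h.smul_mkY, dU_mk, dU_mk, dm_mul]

theorem dU_K {κ : G} (hκ : κ ∈ h.K) (ξ : h.Y) : dU h (κ • ξ) = (ρ κ).1 * dU h ξ * (ρ κ).1ᵀ := by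
  rw [← dU_smul, h.co_of_K hκ, mul_zero, Real.exp_zero, one_smul]

theorem dU_one : dU h ((1 : G) : h.Y) = h.dt⁻¹ • h.Pt := by
  rw [dU_mk]
  unfold dm
  rw [zz_M h h.M.one_mem, h.hs_one, mul_zero, Real.exp_zero, one_mul]

theorem dU_tr (ξ : h.Y) : (dU h ξ)ᵀ = dU h ξ := by
  obtain ⟨x, rfl⟩ := QuotientGroup.mk_surjective ξ
  rw [dU_mk]
  unfold dm
  rw [transpose_smul, zz_tr]

theorem trace_dU (ξ : h.Y) : (dU h ξ).trace = 1 := by
  obtain ⟨x, rfl⟩ := QuotientGroup.mk_surjective ξ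
  rw [dU_mk]
  unfold dm
  have := h.dt_pos
  rw [trace_smul, trace_zz, smul_eq_mul, inv_mul_cancel₀ (by positivity)]

theorem norm_du_le (ξ : h.Y) : ‖du h ξ‖ ≤ 1 := by
  obtain ⟨κ, hκ, rfl⟩ := h.exists_K ξ
  have e : (κ : h.Y) = κ • ((1 : G) : h.Y) := by rw [h.smul_mkY, mul_one]
  rw [du_apply, e, dU_K h hκ, norm_vec_ort (h.K_tr_mul hκ), dU_one]
  refine norm_vec_le zero_le_one ?_
  have := h.dt_pos
  rw [ip_smul_left, ip_smul_right, h.ip_Pt, inv_mul_cancel₀ this.ne', mul_one, one_pow]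
  exact inv_le_one_of_one_le₀ (one_le_dt h)

theorem du_inj : Function.Injective (du h) := by
  intro ξ ξ' e
  obtain ⟨κ, hκ, rfl⟩ := h.exists_K ξ
  obtain ⟨κ', hκ', rfl⟩ := h.exists_K ξ'
  have e1 : dU h (κ : h.Y) = dU h (κ' : h.Y) := congrArg mat e
  have hk := h.K.mul_mem (h.K.inv_mem hκ) hκ'
  have e2 : dU h ((κ⁻¹ * κ') • ((1 : G) : h.Y)) = dU h ((1 : G) : h.Y) := by
    rw [h.smul_mkY, mul_one, ← h.smul_mkY, dU_K h (h.K.inv_mem hκ), ← e1,
      ← dU_K h (h.K.inv_mem hκ), h.smul_mkY, inv_mul_cancel]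
  rw [dU_K h hk, dU_one, Matrix.mul_smul, Matrix.smul_mul] at e2
  have e3 := smul_right_injective _ (inv_ne_zero h.dt_pos.ne') e2
  refine QuotientGroup.eq.2 (h.mem_P_of (B := (ρ (κ⁻¹ * κ')).1) ?_)
  calc _ = (ρ (κ⁻¹ * κ')).1 * h.Pt * ((ρ (κ⁻¹ * κ')).1ᵀ * (ρ (κ⁻¹ * κ')).1) := by
        rw [h.K_tr_mul hk, Matrix.mul_one]
    _ = _ := by rw [← Matrix.mul_assoc, e3]

theorem gap_dU (ξ : h.Y) {a b : Fin n} (h0 : dU h ξ a b ≠ 0) : w a = h.lam ∨ w a ≤ h.lam - 1 := by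
  obtain ⟨x, rfl⟩ := QuotientGroup.mk_surjective ξ
  have h1 : zz h x a b ≠ 0 := fun h2 => h0 (by
    rw [dU_mk]
    unfold dm
    rw [Matrix.smul_apply, h2, smul_zero])
  obtain ⟨c, h2, -⟩ := mul_ne h1
  exact gap h x h2

theorem top_dU (ξ : h.Y) : ∃ c : ℝ, h.Pt * dU h ξ * h.Pt = c • dU h ((1 : G) : h.Y) := by
  obtain ⟨x, rfl⟩ := QuotientGroup.mk_surjective ξ
  obtain ⟨c, hc⟩ := top_zz h x
  refine ⟨(Real.exp (2 * h.lam * h.hs x))⁻¹ * c, ?_⟩
  rw [dU_one, dU_mk]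
  unfold dm
  rw [Matrix.mul_smul, Matrix.smul_mul, hc, smul_smul, smul_smul]
  congr 1
  rw [mul_inv]
  ring

/-- the defect of the Busemann cocycle -/
noncomputable def bo (y : G) (ξ : h.Y) : ℝ := h.co y ξ - h.rr y

theorem bo_le (y : G) (ξ : h.Y) : bo h y ξ ≤ 0 := by
  have := (abs_le.1 (h.abs_co_le y ξ)).2
  unfold bo
  linarith

/-- the exponential of the defect -/
noncomputable def be (y : G) (ξ : h.Y) : ℝ := Real.exp (2 * h.lam * bo h y ξ)

theorem be_pos (y : G) (ξ : h.Y) : 0 < be h y ξ := Real.exp_pos _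

theorem be_le (y : G) (ξ : h.Y) : be h y ξ ≤ 1 :=
  Real.exp_le_one_iff.2 (mul_nonpos_of_nonneg_of_nonpos (by linarith [h.lam_pos]) (bo_le h y ξ))

theorem exp_co (y : G) (ξ : h.Y) :
    Real.exp (2 * h.lam * h.co y ξ) = ⟪vec ((ρ y).1ᵀ * (ρ y).1), du h ξ⟫_ℝ := by
  have e := congrArg Matrix.trace (dU_smul h y ξ)
  rw [trace_smul, trace_dU, smul_eq_mul, mul_one] at e
  rw [e, du_apply, inner_vec, trace_mul_cycle]
  unfold ip
  rw [dU_tr]

theorem norm_co_le (y : G) :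
    ‖vec ((ρ y).1ᵀ * (ρ y).1)‖ ≤ n * Real.exp (2 * h.lam * h.rr y) := by
  obtain ⟨κ, hκ, κ', hκ', e⟩ := h.kak_rr y
  have h0 := h.rr_nonneg y
  generalize h.rr y = s at e h0
  have e1 : (ρ y).1ᵀ * (ρ y).1 = (ρ κ').1ᵀ * (ρ (h.a (s + s))).1 * (ρ κ').1ᵀᵀ := by
    rw [e, vmul, vmul, transpose_mul, transpose_mul, h.a_tr, h.a_add, vmul, transpose_transpose]
    calc _ = (ρ κ').1ᵀ * (ρ (h.a s)).1 * ((ρ κ).1ᵀ * (ρ κ).1) * (ρ (h.a s)).1 * (ρ κ').1 := by
          simp only [Matrix.mul_assoc]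
      _ = _ := by rw [h.K_tr_mul hκ]; simp only [Matrix.mul_assoc, Matrix.one_mul]
  rw [e1, norm_vec_ort (by rw [transpose_transpose]; exact h.K_mul_tr hκ'), h.a_val]
  refine norm_vec_le (by positivity) ?_
  have h1 := ip_diag_le (x := fun a => Real.exp ((s + s) * w a))
    (c := Real.exp (2 * h.lam * s) ^ 2) (fun a => by
      rw [← Real.exp_add, ← Real.exp_nat_mul]
      refine Real.exp_le_exp.2 ?_
      have := mul_le_mul_of_nonneg_left (h.le_lam a) h0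
      push_cast
      linarith) (1 : Mat n)
  rw [Matrix.mul_one, ← norm_vec_sq (1 : Mat n)] at h1
  refine h1.trans ?_
  rw [mul_pow, mul_comm]
  exact mul_le_mul_of_nonneg_right (pow_le_pow_left₀ (norm_nonneg _) norm_vec_one 2) (by positivity)

/-- the defect is a bounded linear functional -/
theorem exists_be (y : G) : ∃ l : EE n, ‖l‖ ≤ n ∧ ∀ ξ, be h y ξ = ⟪l, du h ξ⟫_ℝ := by
  refine ⟨Real.exp (-(2 * h.lam * h.rr y)) • vec ((ρ y).1ᵀ * (ρ y).1), ?_, fun ξ => ?_⟩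
  · rw [norm_smul, Real.norm_eq_abs, abs_of_pos (Real.exp_pos _)]
    refine (mul_le_mul_of_nonneg_left (norm_co_le h y) (Real.exp_pos _).le).trans (le_of_eq ?_)
    rw [mul_left_comm, ← Real.exp_add, neg_add_cancel, Real.exp_zero, mul_one]
  · rw [real_inner_smul_left, ← exp_co, ← Real.exp_add]
    unfold be bo
    congr 1
    ring

/-- the coefficients of the contraction -/
noncomputable def cf (s : ℝ) : Mat n := Matrix.of fun a b =>
  if w a + w b ≤ 2 * h.lam - 1 then Real.exp (s * (w a + w b - 2 * h.lam)) else 0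

theorem norm_cf {s : ℝ} (hs : 0 ≤ s) (U : Mat n) :
    ‖vec (cf h s ⊙ U)‖ ≤ Real.exp (-s) * ‖vec U‖ := by
  refine norm_vec_le (by positivity) ?_
  rw [mul_pow, norm_vec_sq, ip_eq, ip_eq, Finset.mul_sum]
  refine Finset.sum_le_sum fun a _ => ?_
  rw [Finset.mul_sum]
  refine Finset.sum_le_sum fun b _ => ?_
  have h1 : 0 ≤ cf h s a b ∧ cf h s a b ≤ Real.exp (-s) := by
    unfold cf
    rw [Matrix.of_apply]
    split_ifs with h2
    · exact ⟨(Real.exp_pos _).le, Real.exp_le_exp.2 (by nlinarith)⟩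
    · exact ⟨le_rfl, (Real.exp_pos _).le⟩
  rw [hadamard_apply]
  calc _ = cf h s a b ^ 2 * (U a b * U a b) := by ring
    _ ≤ _ := mul_le_mul_of_nonneg_right (pow_le_pow_left₀ h1.1 h1.2 2) (mul_self_nonneg _)

theorem a_dU (s : ℝ) (ξ : h.Y) : Real.exp (-(2 * h.lam * s)) •
    ((ρ (h.a s)).1 * dU h ξ * (ρ (h.a s)).1ᵀ) = h.Pt * dU h ξ * h.Pt + cf h s ⊙ dU h ξ := by
  ext a b
  rw [h.a_tr, h.a_val, Matrix.smul_apply, mul_diagonal, diagonal_mul, Matrix.add_apply,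
    hadamard_apply]
  unfold R1.Pt cf
  rw [mul_pj_apply, pj_mul_apply, Matrix.of_apply, smul_eq_mul]
  by_cases h0 : dU h ξ a b = 0
  · rw [h0]
    simp
  have e : Real.exp (-(2 * h.lam * s)) * (Real.exp (s * w a) * dU h ξ a b * Real.exp (s * w b)) =
      Real.exp (s * (w a + w b - 2 * h.lam)) * dU h ξ a b := by
    rw [show s * (w a + w b - 2 * h.lam) = -(2 * h.lam * s) + s * w a + s * w b by ring,
      Real.exp_add, Real.exp_add]
    ring
  have h1 := gap_dU h ξ h0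
  have h2 := gap_dU h ξ (a := b) (b := a) (by rw [← transpose_apply (dU h ξ), dU_tr]; exact h0)
  have h3 := h.le_lam a
  have h4 := h.le_lam b
  rw [e]
  rcases h1 with h1 | h1
  · rcases h2 with h2 | h2
    · rw [if_pos h1, if_pos h2, if_neg (by linarith), h1, h2,
        show h.lam + h.lam - 2 * h.lam = 0 by ring]
      simp
    · rw [if_neg (by linarith), if_pos (by linarith), zero_add]
  · rw [if_neg (show ¬ w a = h.lam by linarith), ite_self, if_pos (by linarith), zero_add]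

/-- **the contraction towards the attracting direction is linear** -/
theorem exists_con {κ κ' : G} (hκ : κ ∈ h.K) (hκ' : κ' ∈ h.K) {s : ℝ} (hs : 0 ≤ s) :
    ∃ D : EE n →L[ℝ] EE n, ‖D‖ ≤ (1 + n) * Real.exp (-s) ∧ ∀ ξ, be h (κ * h.a s * κ') ξ •
      (du h ((κ * h.a s * κ') • ξ) - du h (κ : h.Y)) = D (du h ξ) := by
  let D : EE n →ₗ[ℝ] EE n :=
    { toFun := fun u => vec ((ρ κ).1 * (cf h s ⊙ ((ρ κ').1 * mat u * (ρ κ').1ᵀ)) * (ρ κ).1ᵀ) -
        (cf h s ⊙ ((ρ κ').1 * mat u * (ρ κ').1ᵀ)).trace • du h (κ : h.Y)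
      map_add' := fun u v => by
        rw [show mat (u + v) = mat u + mat v from rfl, Matrix.mul_add, Matrix.add_mul, hadamard_add,
          Matrix.mul_add, Matrix.add_mul, vec_add, trace_add, add_smul]
        abel
      map_smul' := fun c u => by
        rw [show mat (c • u) = c • mat u from rfl, Matrix.mul_smul, Matrix.smul_mul, hadamard_smul,
          Matrix.mul_smul, Matrix.smul_mul, vec_smul, trace_smul, smul_eq_mul, mul_smul, ← smul_sub]
        rfl }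
  have hD : ∀ u, ‖D u‖ ≤ (1 + n) * Real.exp (-s) * ‖u‖ := fun u => by
    have h1 := norm_cf h hs ((ρ κ').1 * mat u * (ρ κ').1ᵀ)
    rw [norm_vec_ort (h.K_tr_mul hκ'), vec_mat] at h1
    have h2 := abs_trace_le (cf h s ⊙ ((ρ κ').1 * mat u * (ρ κ').1ᵀ))
    refine (norm_sub_le _ _).trans ?_
    rw [norm_vec_ort (h.K_tr_mul hκ), norm_smul, Real.norm_eq_abs]
    have h3 := mul_le_of_le_one_right (abs_nonneg
      (cf h s ⊙ ((ρ κ').1 * mat u * (ρ κ').1ᵀ)).trace) (norm_du_le h (κ : h.Y))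
    have h4 := mul_le_mul_of_nonneg_left h1 (Nat.cast_nonneg n)
    linarith
  refine ⟨D.mkContinuous _ hD, D.mkContinuous_norm_le (by positivity) hD, fun ξ => ?_⟩
  obtain ⟨c, hc⟩ := top_dU h (κ' • ξ)
  have e1 : be h (κ * h.a s * κ') ξ • dU h ((κ * h.a s * κ') • ξ) =
      c • dU h (κ : h.Y) + (ρ κ).1 * (cf h s ⊙ dU h (κ' • ξ)) * (ρ κ).1ᵀ := by
    have e2 : (κ : h.Y) = κ • ((1 : G) : h.Y) := by rw [h.smul_mkY, mul_one]
    have e3 : be h (κ * h.a s * κ') ξ = Real.exp (-(2 * h.lam * s)) *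
        Real.exp (2 * h.lam * h.co (κ * h.a s * κ') ξ) := by
      unfold be bo
      rw [h.rr_kak hκ hκ' hs, ← Real.exp_add]
      congr 1
      ring
    have e5 : c • ((ρ κ).1 * dU h ((1 : G) : h.Y) * (ρ κ).1ᵀ) =
        (ρ κ).1 * (c • dU h ((1 : G) : h.Y)) * (ρ κ).1ᵀ := by
      rw [Matrix.mul_smul, Matrix.smul_mul]
    rw [e3, mul_smul, dU_smul, e2, dU_K h hκ, e5, ← hc, ← Matrix.add_mul, ← Matrix.mul_add,
      ← a_dU, dU_K h hκ', vmul, vmul, transpose_mul, transpose_mul]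
    simp only [Matrix.mul_smul, Matrix.smul_mul, Matrix.mul_assoc]
  have e4 := congrArg Matrix.trace e1
  rw [trace_smul, trace_add, trace_smul, trace_dU, trace_dU, trace_mul_cycle, h.K_tr_mul hκ,
    Matrix.one_mul, smul_eq_mul, smul_eq_mul, mul_one, mul_one] at e4
  show _ = vec ((ρ κ).1 * (cf h s ⊙ ((ρ κ').1 * dU h ξ * (ρ κ').1ᵀ)) * (ρ κ).1ᵀ) -
    (cf h s ⊙ ((ρ κ').1 * dU h ξ * (ρ κ').1ᵀ)).trace • du h (κ : h.Y)
  rw [← dU_K h hκ', smul_sub, du_apply, ← vec_smul, e1, vec_add, vec_smul, e4, add_smul, du_apply]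
  abel

theorem norm_con {κ κ' : G} (hκ : κ ∈ h.K) (hκ' : κ' ∈ h.K) {s : ℝ} (hs : 0 ≤ s) (ξ : h.Y) :
    be h (κ * h.a s * κ') ξ * ‖du h ((κ * h.a s * κ') • ξ) - du h (κ : h.Y)‖ ≤
      (1 + n) * Real.exp (-s) := by
  obtain ⟨D, hD, e⟩ := exists_con h hκ hκ' hs
  have e1 := congrArg norm (e ξ)
  rw [norm_smul, Real.norm_eq_abs, abs_of_pos (be_pos h _ _)] at e1
  rw [e1]
  exact (D.le_opNorm _).trans ((mul_le_of_le_one_right (norm_nonneg _) (norm_du_le h ξ)).trans hD)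

/-- the linear model is Lipschitz for the visual metric -/
theorem du_lip : ∃ C : ℝ, 0 ≤ C ∧ ∀ (ξ ξ' : h.Y) (s : ℝ), h.dv ξ ξ' ≤ Real.exp (-(2 * s)) →
    ‖du h ξ - du h ξ'‖ ≤ C * Real.exp (-s) := by
  obtain ⟨c, hc, hc2⟩ := h.two_corner
  have hl := h.lam_pos
  refine ⟨(1 + n) * Real.exp (2 * h.lam * Real.log (2 / c)) + 2, by positivity, fun ξ ξ' s e => ?_⟩
  rcases le_total s 0 with hs | hs
  · have h1 : 1 ≤ Real.exp (-s) := Real.one_le_exp (by linarith)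
    have h2 := norm_sub_le (du h ξ) (du h ξ')
    have h3 := norm_du_le h ξ
    have h4 := norm_du_le h ξ'
    have h5 : 0 ≤ (1 + n) * Real.exp (2 * h.lam * Real.log (2 / c)) * Real.exp (-s) := by
      positivity
    nlinarith
  obtain ⟨κ, hκ, rfl⟩ := h.exists_K ξ
  obtain ⟨κ', hκ', rfl⟩ := h.exists_K ξ'
  rw [h.dv_K hκ hκ'] at e
  have hk := h.K.mul_mem (h.K.inv_mem hκ) hκ'
  have h1 := norm_con h hκ h.K.one_mem hs ((h.a (-s) * (κ⁻¹ * κ') : G) : h.Y)
  have e1 : κ * h.a s * 1 * (h.a (-s) * (κ⁻¹ * κ')) = κ' := by rw [h.a_neg]; group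
  rw [h.smul_mkY, e1] at h1
  have h2 := hc2 (h.a (-s) * (κ⁻¹ * κ'))
  rw [h.bd_a_mul, h.bd_w0_a_mul, neg_neg] at h2
  have h3 : Real.exp s * h.bd (κ⁻¹ * κ') ≤ Real.exp (-s) := by
    refine (mul_le_mul_of_nonneg_left e (Real.exp_pos _).le).trans (le_of_eq ?_)
    rw [← Real.exp_add]
    congr 1
    ring
  have h4 : Real.exp (-s) * h.bd (h.w0 * (κ⁻¹ * κ')) ≤ Real.exp (-s) :=
    mul_le_of_le_one_right (Real.exp_pos _).le (h.bd_K_le (h.K.mul_mem h.w0_mem hk))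
  have h5 : h.hs (h.a (-s) * (κ⁻¹ * κ')) ≤ Real.log (2 / c) - s := by
    rw [← Real.exp_le_exp, sub_eq_add_neg, Real.exp_add, Real.exp_log (by positivity),
      div_mul_eq_mul_div, le_div_iff₀ hc]
    linarith
  have h6 : 1 ≤ Real.exp (2 * h.lam * Real.log (2 / c)) *
      be h (κ * h.a s * 1) ((h.a (-s) * (κ⁻¹ * κ') : G) : h.Y) := by
    unfold be bo
    rw [← Real.exp_add, co_mk', e1, h.hs_K hκ', h.rr_kak hκ h.K.one_mem hs]
    refine Real.one_le_exp ?_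
    nlinarith
  rw [norm_sub_rev]
  have h7 := norm_nonneg (du h (κ' : h.Y) - du h (κ : h.Y))
  have h8 := mul_le_mul_of_nonneg_left h1 (Real.exp_pos (2 * h.lam * Real.log (2 / c))).le
  have h9 := Real.exp_pos (-s)
  nlinarith

end Vale.Agent.P092RA
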