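import Vale.Agent.P092RA.Atom
import Vale.Agent.P092RA.Lin
import Vale.Agent.P092RG.Vol

/-!
P092, rank one, block A0 (helper3): the tests, the wall energies and the norm `NN`.
-/

set_option linter.all false

open MeasureTheory Filter Topology
open scoped InnerProductSpace ContDiff ENNReal

namespace Vale.Agent.P092RA

open Vale.Agent.P092.H793.Re Vale.Agent.P092RG

variable {n : ℕ} {G : Type} [Group G] [TopologicalSpace G]
variable {ρ : G →* SLn n} {w : Fin n → ℝ}

/-- the cutoff: `1` above `exp (-2 l)` and `0` below `exp (-4 l)` -/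
noncomputable def ps (l s : ℝ) : ℝ := Real.smoothTransition
  ((s - Real.exp (-(4 * l))) / (Real.exp (-(2 * l)) - Real.exp (-(4 * l))))

theorem contDiff_ps (l : ℝ) : ContDiff ℝ ∞ (ps l) :=
  Real.smoothTransition.contDiff.comp ((contDiff_id.sub contDiff_const).div_const _)

@[fun_prop] theorem continuous_ps (l : ℝ) : Continuous (ps l) := (contDiff_ps l).continuous

theorem ps_nonneg (l s : ℝ) : 0 ≤ ps l s := Real.smoothTransition.nonneg _

theorem ps_le (l s : ℝ) : ps l s ≤ 1 := Real.smoothTransition.le_one _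

theorem ps_den {l : ℝ} (hl : 0 < l) : 0 < Real.exp (-(2 * l)) - Real.exp (-(4 * l)) :=
  sub_pos.2 (Real.exp_lt_exp.2 (by linarith))

theorem ps_one {l s : ℝ} (hl : 0 < l) (hs : Real.exp (-(2 * l)) ≤ s) : ps l s = 1 :=
  Real.smoothTransition.one_of_one_le ((one_le_div (ps_den hl)).2 (by linarith))

theorem ps_zero {l s : ℝ} (hl : 0 < l) (hs : s ≤ Real.exp (-(4 * l))) : ps l s = 0 :=
  Real.smoothTransition.zero_of_nonpos
    (div_nonpos_of_nonpos_of_nonneg (by linarith) (ps_den hl).le)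

variable (h : R1 ρ w)
include h

theorem continuous_bo : Continuous fun q : G × h.Y => bo h q.1 q.2 :=
  h.continuous_co.sub (h.continuous_rr.comp continuous_fst)

theorem continuous_be : Continuous fun q : G × h.Y => be h q.1 q.2 :=
  Real.continuous_exp.comp (continuous_const.mul (continuous_bo h))

theorem ps_be_one {y : G} {ξ : h.Y} (e : -1 ≤ bo h y ξ) : ps h.lam (be h y ξ) = 1 :=
  ps_one h.lam_pos (Real.exp_le_exp.2 (by nlinarith [h.lam_pos]))

theorem lt_bo {y : G} {ξ : h.Y} (e : ps h.lam (be h y ξ) ≠ 0) : -2 < bo h y ξ := by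
  by_contra hc
  exact e (ps_zero h.lam_pos (Real.exp_le_exp.2 (by nlinarith [h.lam_pos, not_lt.1 hc])))

/-- the cutoff of the shadow, seen from the wall -/
noncomputable def sh (y : G) : C(h.Y, ℂ) :=
  ⟨fun ξ => (ps h.lam (be h y ξ) : ℂ), Complex.continuous_ofReal.comp ((continuous_ps _).comp
    ((continuous_be h).comp (Continuous.prodMk_right y)))⟩

theorem sh_apply (y : G) (ξ : h.Y) : sh h y ξ = (ps h.lam (be h y ξ) : ℂ) := rfl

theorem continuous_sh : Continuous (sh h) :=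
  ContinuousMap.continuous_of_continuous_uncurry _
    (Complex.continuous_ofReal.comp ((continuous_ps _).comp (continuous_be h)))

theorem norm_sh_le (y : G) : ‖sh h y‖ ≤ 1 := (ContinuousMap.norm_le _ zero_le_one).2 fun ξ => by
  rw [sh_apply, Complex.norm_real, Real.norm_eq_abs, abs_of_nonneg (ps_nonneg _ _)]
  exact ps_le _ _

theorem exp_co_le (t : ℝ) (v : G) (ξ : h.Y) :
    Real.exp (-(t * h.co v⁻¹ ξ)) ≤ Real.exp (|t| * h.rr v) := by
  refine Real.exp_le_exp.2 ((neg_le_abs _).trans ?_)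
  rw [abs_mul, ← h.rr_inv v]
  exact mul_le_mul_of_nonneg_left (h.abs_co_le _ _) (abs_nonneg t)

/-- the action on functions, as a linear map -/
noncomputable def actL (t : ℝ) (v : G) : C(h.Y, ℂ) →ₗ[ℂ] C(h.Y, ℂ) where
  toFun f := ⟨fun ξ => (Real.exp (-(t * h.co v⁻¹ ξ)) : ℂ) * f (v⁻¹ • ξ),
    (Complex.continuous_ofReal.comp (Real.continuous_exp.comp (continuous_const.mul
      (h.continuous_co.comp (Continuous.prodMk_right v⁻¹))).neg)).mul
      (f.continuous.comp (continuous_const_smul v⁻¹))⟩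
  map_add' f g := by
    ext ξ
    exact mul_add _ _ _
  map_smul' c f := by
    ext ξ
    exact mul_left_comm _ _ _

theorem norm_actL (t : ℝ) (v : G) (f : C(h.Y, ℂ)) :
    ‖actL h t v f‖ ≤ Real.exp (|t| * h.rr v) * ‖f‖ :=
  (ContinuousMap.norm_le _ (by positivity)).2 fun ξ => by
    show ‖(Real.exp (-(t * h.co v⁻¹ ξ)) : ℂ) * f (v⁻¹ • ξ)‖ ≤ _
    rw [norm_mul, Complex.norm_real, Real.norm_eq_abs, abs_of_pos (Real.exp_pos _)]
    exact mul_le_mul (exp_co_le h t v ξ) (f.norm_coe_le_norm _) (norm_nonneg _) (Real.exp_pos _).le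

/-- **the action of parameter `t` on `C(Y, ℂ)`** -/
noncomputable def act (t : ℝ) (v : G) : C(h.Y, ℂ) →L[ℂ] C(h.Y, ℂ) :=
  (actL h t v).mkContinuous _ (norm_actL h t v)

theorem act_apply (t : ℝ) (v : G) (f : C(h.Y, ℂ)) (ξ : h.Y) :
    act h t v f ξ = (Real.exp (-(t * h.co v⁻¹ ξ)) : ℂ) * f (v⁻¹ • ξ) := rfl

theorem norm_act_le (t : ℝ) (v : G) : ‖act h t v‖ ≤ Real.exp (|t| * h.rr v) :=
  LinearMap.mkContinuous_norm_le _ (Real.exp_pos _).le _

theorem act_mul (t : ℝ) (v v' : G) (f : C(h.Y, ℂ)) :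
    act h t (v * v') f = act h t v (act h t v' f) := by
  ext ξ
  rw [act_apply, act_apply, act_apply, mul_inv_rev, h.co_mul, mul_smul, ← mul_assoc,
    ← Complex.ofReal_mul, ← Real.exp_add]
  congr 3
  ring

theorem act_K (t : ℝ) {κ : G} (hκ : κ ∈ h.K) (f : C(h.Y, ℂ)) (ξ : h.Y) :
    act h t κ f ξ = f (κ⁻¹ • ξ) := by
  rw [act_apply, h.co_of_K (h.K.inv_mem hκ), mul_zero, neg_zero, Real.exp_zero, Complex.ofReal_one,
    one_mul]

theorem act_one (t : ℝ) (f : C(h.Y, ℂ)) : act h t 1 f = f := by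
  ext ξ
  rw [act_K h t h.K.one_mem, inv_one, one_smul]

theorem continuous_act (t : ℝ) : Continuous fun q : G × C(h.Y, ℂ) => act h t q.1 q.2 := by
  haveI := topGroup h.rs.emb
  refine ContinuousMap.continuous_of_continuous_uncurry _ ?_
  have h1 : Continuous fun z : (G × C(h.Y, ℂ)) × h.Y => h.co z.1.1⁻¹ z.2 :=
    h.continuous_co.comp (f := fun z : (G × C(h.Y, ℂ)) × h.Y => (z.1.1⁻¹, z.2)) (by fun_prop)
  show Continuous fun z : (G × C(h.Y, ℂ)) × h.Y =>
    (Real.exp (-(t * h.co z.1.1⁻¹ z.2)) : ℂ) * z.1.2 (z.1.1⁻¹ • z.2)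
  fun_prop

/-- **the tests**: `TT t y v η ξ = exp (-t co v⁻¹ ξ) ψ (be y (v⁻¹ ξ)) e ⟪η, du (v⁻¹ ξ)⟫`; the wall
`v` is seen from `v y⁻¹` -/
noncomputable def TT (t : ℝ) (y v : G) (η : EE n) : C(h.Y, ℂ) :=
  act h t v (sh h y * em (du h) η)

theorem continuous_TT (t : ℝ) : Continuous fun q : G × G × EE n => TT h t q.1 q.2.1 q.2.2 :=
  (continuous_act h t).comp (f := fun q : G × G × EE n =>
    (q.2.1, sh h q.1 * em (du h) q.2.2)) ((continuous_fst.comp continuous_snd).prodMk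
    (((continuous_sh h).comp continuous_fst).mul
      ((continuous_em _).comp (continuous_snd.comp continuous_snd))))

theorem norm_TT_le (t : ℝ) (y v : G) (η : EE n) : ‖TT h t y v η‖ ≤ Real.exp (|t| * h.rr v) := by
  refine ((act h t v).le_opNorm _).trans ((mul_le_of_le_one_right (norm_nonneg _) ?_).trans
    (norm_act_le h t v))
  exact (norm_mul_le _ _).trans (mul_le_one₀ (norm_sh_le h y) (norm_nonneg _) (norm_em_le _ _))

theorem act_TT (t : ℝ) (x y v : G) (η : EE n) :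
    act h t x (TT h t y v η) = TT h t y (x * v) η := (act_mul h t x v _).symm

/-- the seminorm of a wall -/
noncomputable def wl (t : ℝ) (y v : G) (Z : SN h.Y) : SN h.Y :=
  (Z.comp (act h t v)).comp (ContinuousLinearMap.mul ℂ C(h.Y, ℂ) (sh h y))

theorem wl_p (t : ℝ) (y v : G) (Z : SN h.Y) (f : C(h.Y, ℂ)) :
    (wl h t y v Z).p f = Z.p (act h t v (sh h y * f)) := rfl

/-- the order of the weight -/
noncomputable def MM : ℕ := n * n + 2 * h.Q + 4

theorem finrank_EE : Module.finrank ℝ (EE n) = n * n := by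
  rw [finrank_euclideanSpace, Fintype.card_prod, Fintype.card_fin]

theorem lt_MM : Module.finrank ℝ (EE n) < MM h := by
  rw [finrank_EE h]
  unfold MM
  omega

/-- **the energy of the wall `v`** -/
noncomputable def qw (t : ℝ) (v : G) (Z : SN h.Y) : ℝ := qq (du h) (MM h) (wl h t v v Z)

theorem qw_eq (t : ℝ) (v : G) (Z : SN h.Y) :
    qw h t v Z = ∫ η, Z.p (TT h t v v η) ^ 2 * wt (MM h) η := rfl

theorem qw_nonneg (t : ℝ) (v : G) (Z : SN h.Y) : 0 ≤ qw h t v Z := qq_nonneg _ _ _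

theorem integrable_qw (t : ℝ) (y v : G) (Z : SN h.Y) :
    Integrable fun η => Z.p (TT h t y v η) ^ 2 * wt (MM h) η :=
  integrable_qq _ (lt_MM h) (wl h t y v Z)

theorem integrable_wtM : Integrable fun η : EE n => wt (MM h) η := by
  simpa using integrable_wt (P := 0) (M := MM h) (F := EE n) (lt_MM h)

theorem qw_le (t : ℝ) (v : G) (Z : SN h.Y) :
    qw h t v Z ≤ (Z.B * Real.exp (|t| * h.rr v)) ^ 2 * ∫ η : EE n, wt (MM h) η := by
  rw [qw_eq, ← integral_const_mul]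
  refine integral_mono (integrable_qw h t v v Z) ((integrable_wtM h).const_mul _) fun η => ?_
  refine mul_le_mul_of_nonneg_right (pow_le_pow_left₀ (Z.nonneg _) ((Z.le _).trans ?_) 2)
    (wt_pos _ _).le
  exact mul_le_mul_of_nonneg_left (norm_TT_le h t v v η) Z.B0

theorem continuous_pT (t : ℝ) (Z : SN h.Y) :
    Continuous fun q : G × EE n => Z.p (TT h t q.1 q.1 q.2) :=
  Z.continuous.comp ((continuous_TT h t).comp (f := fun q : G × EE n => (q.1, q.1, q.2))
    (by fun_prop))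

variable [IsTopologicalGroup G] [SecondCountableTopology G] [MeasurableSpace G] [BorelSpace G]

theorem measurable_qw (t : ℝ) (Z : SN h.Y) : Measurable fun v => qw h t v Z :=
  (StronglyMeasurable.integral_prod_right' (f := fun q : G × EE n =>
    Z.p (TT h t q.1 q.1 q.2) ^ 2 * wt (MM h) q.2) (Measurable.stronglyMeasurable
    ((((continuous_pT h t Z).pow 2).mul
      ((continuous_wt _).comp continuous_snd)).measurable))).measurable

/-- **the norm** -/
noncomputable def NN (μ : Measure G) (t : ℝ) (Z : SN h.Y) : ℝ≥0∞ :=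
  ∫⁻ v, ENNReal.ofReal (qw h t v Z) ∂μ + ENNReal.ofReal (t⁻¹ * Z.p 1 ^ 2)

/-- **(EQ)** the action is uniformly bounded for the norm -/
def EQ (μ : Measure G) : Prop := ∃ C : ℝ, 0 ≤ C ∧ ∀ t : ℝ, 0 < t → t ≤ 1 / 4 →
  ∀ (x : G) (Z : SN h.Y), NN h μ t (Z.comp (act h t x)) ≤ ENNReal.ofReal C * NN h μ t Z

/-- the energy of the walls near `y` -/
noncomputable def bb (μ : Measure G) (t : ℝ) (Z : SN h.Y) (y : G) (R : ℝ) : ℝ :=
  Real.sqrt (∫ v in {v | h.rr (y⁻¹ * v) ≤ R}, qw h t v Z ∂μ)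

/-- the level of a point of the boundary along the segment from `1` to `v` -/
noncomputable def gm (v : G) (ξ : h.Y) : ℝ := (h.rr v - h.co v⁻¹ ξ) / 2

/-- **ATOM** at a wall -/
theorem wall_atom {k : ℕ} {Φ : (Fin k → ℝ) → ℂ} (hΦ : ContDiff ℝ ∞ Φ) (Λ : ℝ) :
    ∃ C : ℝ, 0 ≤ C ∧ ∀ (t : ℝ) (v : G) (Z : SN h.Y) (a : Fin k → ℝ) (l : Fin k → EE n),
      (∀ i, |a i| ≤ Λ) → (∀ i, ‖l i‖ ≤ Λ) → ∀ f : C(h.Y, ℂ),
        (∀ ξ, f ξ = Φ fun i => a i + ⟪l i, du h ξ⟫_ℝ) →
          Z.p (act h t v (sh h v * f)) ≤ C * Real.sqrt (qw h t v Z) := by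
  obtain ⟨C, hC, hA⟩ := atom (Y := h.Y) (lt_MM h) hΦ Λ
  exact ⟨C, hC, fun t v Z a l ha hl f hf => hA (du h) (norm_du_le h) (wl h t v v Z) a l ha hl f hf⟩

end Vale.Agent.P092RA
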