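import Vale.Agent.P092RA.Defs

/-!
P092, rank one, block A0 (helper3): the geometry of walls and levels.
-/

set_option linter.all false

open Filter Topology
open scoped InnerProductSpace

namespace Vale.Agent.P092RA

open Vale.Agent.P092.H793.Re Vale.Agent.P092RG

variable {n : ℕ} {G : Type} [Group G] [TopologicalSpace G]
variable {ρ : G →* SLn n} {w : Fin n → ℝ}

variable (h : R1 ρ w)
include h
variable [IsTopologicalGroup G] [SecondCountableTopology G] [MeasurableSpace G] [BorelSpace G]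

theorem gm_nonneg (v : G) (ξ : h.Y) : 0 ≤ gm h v ξ := by
  have := (abs_le.1 (h.abs_co_le v⁻¹ ξ)).2
  rw [h.rr_inv] at this
  unfold gm
  linarith

theorem gm_le (v : G) (ξ : h.Y) : gm h v ξ ≤ h.rr v := by
  have := (abs_le.1 (h.abs_co_le v⁻¹ ξ)).1
  rw [h.rr_inv] at this
  unfold gm
  linarith

theorem continuous_gm (v : G) : Continuous (gm h v) :=
  (continuous_const.sub (h.continuous_co.comp (Continuous.prodMk_right v⁻¹))).div_const _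

theorem co_gm (v : G) (ξ : h.Y) : h.co v⁻¹ ξ = h.rr v - 2 * gm h v ξ := by
  unfold gm
  ring

theorem gm_smul (v : G) (ξ : h.Y) : gm h v (v • ξ) = h.rr v + bo h v ξ / 2 := by
  unfold gm bo
  rw [h.co_inv]
  ring

theorem gm_wall (v v' : G) (ξ : h.Y) : gm h v (v' • ξ) =
    (h.rr v - h.rr (v⁻¹ * v') + h.rr v') / 2 + (bo h v' ξ - bo h (v⁻¹ * v') ξ) / 2 := by
  unfold gm bo
  rw [h.co_mul]
  ring

theorem hs_gm {κ κ' κ₁ : G} (hκ : κ ∈ h.K) (hκ' : κ' ∈ h.K) (hκ₁ : κ₁ ∈ h.K) {r : ℝ} (hr : 0 ≤ r) :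
    h.hs (h.a (-r) * (κ⁻¹ * κ₁)) = r - 2 * gm h (κ * h.a r * κ') (κ₁ : h.Y) := by
  have e := co_gm h (κ * h.a r * κ') (κ₁ : h.Y)
  rw [h.co_K _ hκ₁, h.rr_kak hκ hκ' hr] at e
  rw [← e, ← h.hs_K_mul (h.K.inv_mem hκ'), h.a_neg]
  congr 1
  group

theorem bd_le_gm {κ κ' κ₁ : G} (hκ : κ ∈ h.K) (hκ' : κ' ∈ h.K) (hκ₁ : κ₁ ∈ h.K) {r : ℝ}
    (hr : 0 ≤ r) : h.bd (κ⁻¹ * κ₁) ≤ Real.exp (-(2 * gm h (κ * h.a r * κ') (κ₁ : h.Y))) := by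
  have h1 := h.bd_le_hs (h.a (-r) * (κ⁻¹ * κ₁))
  rw [h.bd_a_mul, neg_neg, hs_gm h hκ hκ' hκ₁ hr, sub_eq_add_neg, Real.exp_add] at h1
  exact le_of_mul_le_mul_left h1 (Real.exp_pos r)

theorem gm_le_bd : ∃ c : ℝ, 0 < c ∧ ∀ κ ∈ h.K, ∀ κ' ∈ h.K, ∀ κ₁ ∈ h.K, ∀ r : ℝ, 0 ≤ r →
    c * Real.exp (-(2 * gm h (κ * h.a r * κ') (κ₁ : h.Y))) ≤
      h.bd (κ⁻¹ * κ₁) + Real.exp (-(2 * r)) := by
  obtain ⟨c, hc, h2⟩ := h.two_corner
  refine ⟨c, hc, fun κ hκ κ' hκ' κ₁ hκ₁ r hr => ?_⟩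
  have h1 := h2 (h.a (-r) * (κ⁻¹ * κ₁))
  rw [h.bd_a_mul, h.bd_w0_a_mul, neg_neg, hs_gm h hκ hκ' hκ₁ hr, sub_eq_add_neg,
    Real.exp_add] at h1
  have h3 : Real.exp (-r) * h.bd (h.w0 * (κ⁻¹ * κ₁)) ≤ Real.exp r * Real.exp (-(2 * r)) := by
    rw [← Real.exp_add, show r + -(2 * r) = -r by ring]
    exact mul_le_of_le_one_right (Real.exp_pos _).le
      (h.bd_K_le (h.K.mul_mem h.w0_mem (h.K.mul_mem (h.K.inv_mem hκ) hκ₁)))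
  refine le_of_mul_le_mul_left ?_ (Real.exp_pos r)
  linarith

theorem gm_neg {κ κ' : G} (hκ : κ ∈ h.K) (hκ' : κ' ∈ h.K) {r : ℝ} (hr : 0 ≤ r) :
    gm h (κ * h.a r * κ') ((κ * h.w0 : G) : h.Y) = 0 := by
  have e := hs_gm h hκ hκ' (h.K.mul_mem hκ h.w0_mem) hr
  rw [inv_mul_cancel_left, ← h.w0_a, h.hs_K_mul h.w0_mem, h.hs_a] at e
  linarith

/-- points of low level are close to the antipode, seen from `v` -/
theorem du_gm : ∃ C : ℝ, 0 ≤ C ∧ ∀ κ ∈ h.K, ∀ κ' ∈ h.K, ∀ r : ℝ, 0 ≤ r → ∀ ξ : h.Y,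
    ‖du h ((κ * h.a r * κ')⁻¹ • ξ) - du h ((κ * h.a r * κ')⁻¹ • ((κ * h.w0 : G) : h.Y))‖ ≤
      C * Real.exp (-(r - gm h (κ * h.a r * κ') ξ)) := by
  obtain ⟨C, hC, h1⟩ := du_lip h
  refine ⟨C, hC, fun κ hκ κ' hκ' r hr ξ => h1 _ _ _ ?_⟩
  rw [h.dv_smul, co_gm, co_gm, gm_neg h hκ hκ' hr, h.rr_kak hκ hκ' hr]
  refine (mul_le_of_le_one_right (Real.exp_pos _).le (h.dv_le_one _ _)).trans (le_of_eq ?_)
  congr 1
  ring

/-- the walls which matter at level `k` -/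
theorem rel : ∃ R : ℝ, 0 ≤ R ∧ ∀ κ ∈ h.K, ∀ κ' ∈ h.K, ∀ r k : ℝ, 0 ≤ r → -1 ≤ k →
    ∀ (v' : G) (ξ : h.Y), k ≤ h.rr v' → -2 < bo h v' ξ →
      k - 1 ≤ gm h (κ * h.a r * κ') (v' • ξ) → h.rr ((κ * h.a k)⁻¹ * v') ≤ h.rr v' - k + R := by
  obtain ⟨C, hC, h1⟩ := h.cosines
  obtain ⟨C', hC', h2⟩ := h.bd_tri
  refine ⟨|Real.log (C * (C' * (2 * Real.exp 2) + 3))|, abs_nonneg _,
    fun κ hκ κ' hκ' r k hr hk v' ξ h3 h4 h5 => ?_⟩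
  obtain ⟨κ₁, hκ₁, κ₂, hκ₂, e⟩ := h.kak_rr v'
  obtain ⟨κ₃, hκ₃, e3⟩ := h.exists_K (v' • ξ)
  have h6 := gm_smul h v' ξ
  have hj := h.rr_nonneg v'
  generalize h.rr v' = j at *
  subst e
  rw [← e3] at h5 h6
  have h7 := (bd_le_gm h hκ hκ' hκ₃ hr).trans
    (Real.exp_le_exp.2 (show _ ≤ 2 + -(2 * k) by linarith))
  have h8 := (bd_le_gm h hκ₁ hκ₂ hκ₃ hj).trans
    (Real.exp_le_exp.2 (show _ ≤ 2 + -(2 * k) by linarith))
  rw [← h.bd_inv] at h8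
  have h9 := h2 _ (h.K.mul_mem (h.K.inv_mem hκ) hκ₃) _
    (h.K.inv_mem (h.K.mul_mem (h.K.inv_mem hκ₁) hκ₃))
  rw [show κ⁻¹ * κ₃ * (κ₁⁻¹ * κ₃)⁻¹ = κ⁻¹ * κ₁ by group] at h9
  have h10 := h1 _ (h.K.mul_mem (h.K.inv_mem hκ) hκ₁) k j
  have e4 : (κ * h.a k)⁻¹ * (κ₁ * h.a j * κ₂) = h.a (-k) * (κ⁻¹ * κ₁) * h.a j * κ₂ := by
    rw [h.a_neg]
    group
  rw [e4, h.rr_mul_K _ hκ₂]
  have h11 : Real.exp (k + j) * h.bd (κ⁻¹ * κ₁) ≤ C' * (2 * Real.exp 2) * Real.exp (j - k) := by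
    have e5 : Real.exp (k + j) * Real.exp (2 + -(2 * k)) = Real.exp 2 * Real.exp (j - k) := by
      rw [← Real.exp_add, ← Real.exp_add]
      congr 1
      ring
    calc _ ≤ Real.exp (k + j) * (C' * (2 * Real.exp (2 + -(2 * k)))) :=
          mul_le_mul_of_nonneg_left (h9.trans (mul_le_mul_of_nonneg_left (by linarith) hC'.le))
            (Real.exp_pos _).le
      _ = C' * 2 * (Real.exp (k + j) * Real.exp (2 + -(2 * k))) := by ring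
      _ = _ := by rw [e5]; ring
  have h12 : Real.exp (k - j) ≤ Real.exp (j - k) := Real.exp_le_exp.2 (by linarith)
  have h13 : Real.exp (-k - j) ≤ Real.exp (j - k) := Real.exp_le_exp.2 (by linarith)
  refine le_trans ?_ (add_le_add_right (le_abs_self _) _)
  rw [← Real.exp_le_exp, Real.exp_add, Real.exp_log (by positivity)]
  refine h10.trans ?_
  calc _ ≤ C * ((C' * (2 * Real.exp 2) + 3) * Real.exp (j - k)) :=
        mul_le_mul_of_nonneg_left (by linarith) hC.le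
    _ = _ := by ring

/-- walls which reach out of the shadow from `1` lie on the segment from `1` to `x` -/
theorem geo : ∃ L C : ℝ, 0 ≤ L ∧ 0 ≤ C ∧ ∀ κ ∈ h.K, ∀ κ' ∈ h.K, ∀ κ₁ ∈ h.K, ∀ κ₂ ∈ h.K,
    ∀ r s : ℝ, 0 ≤ r → 0 ≤ s → (r ≤ L ∨ ∃ ξ : h.Y, -2 < bo h ((κ₁ * h.a s * κ₂)⁻¹ *
      (κ * h.a r * κ')) ((κ * h.a r * κ')⁻¹ • ξ) ∧ gm h (κ * h.a r * κ') ξ ≤ r - L) →
    ∀ k : ℝ, -1 ≤ k → k ≤ r + 1 → h.rr ((κ₁ * h.a k)⁻¹ * (κ * h.a k)) ≤ C := by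
  obtain ⟨C, hC, h1⟩ := h.cosines
  obtain ⟨C', hC', h2⟩ := h.bd_tri
  obtain ⟨c, hc, h3⟩ := gm_le_bd h
  obtain ⟨L, hL0, hL⟩ : ∃ L : ℝ, 0 ≤ L ∧ (C' + 1) * Real.exp (2 - 2 * L) ≤ c / 2 := by
    refine ⟨|1 - Real.log (c / 2 / (C' + 1)) / 2|, abs_nonneg _, ?_⟩
    rw [mul_comm, ← le_div_iff₀ (by positivity), ← Real.le_log_iff_exp_le (by positivity)]
    have := le_abs_self (1 - Real.log (c / 2 / (C' + 1)) / 2)
    linarith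
  obtain ⟨D, hD0, hD⟩ : ∃ D : ℝ, 0 ≤ D ∧ Real.exp (2 * L) ≤ D ∧
      Real.exp 2 * (2 * C' / c) ≤ D :=
    ⟨Real.exp (2 * L) + Real.exp 2 * (2 * C' / c), by positivity,
      le_add_of_nonneg_right (by positivity), le_add_of_nonneg_left (by positivity)⟩
  refine ⟨L, |Real.log (C * (D * Real.exp 2 + 2 + Real.exp 2))|, hL0, abs_nonneg _,
    fun κ hκ κ' hκ' κ₁ hκ₁ κ₂ hκ₂ r s hr hs h4 k hk hk' => ?_⟩
  have hk1 := h.K.mul_mem (h.K.inv_mem hκ₁) hκ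
  have h5 : h.bd (κ₁⁻¹ * κ) ≤ D * Real.exp (-(2 * r)) := by
    rcases h4 with h4 | ⟨ξ, h4, h5⟩
    · refine (h.bd_K_le hk1).trans (le_trans ?_
        (mul_le_mul_of_nonneg_right hD.1 (Real.exp_pos _).le))
      rw [← Real.exp_add]
      exact Real.one_le_exp (by linarith)
    obtain ⟨κ₃, hκ₃, rfl⟩ := h.exists_K ξ
    have e1 := gm_wall h (κ₁ * h.a s * κ₂) (κ * h.a r * κ') ((κ * h.a r * κ')⁻¹ • (κ₃ : h.Y))
    have e2 := gm_smul h (κ * h.a r * κ') ((κ * h.a r * κ')⁻¹ • (κ₃ : h.Y))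
    rw [smul_inv_smul, h.rr_kak hκ hκ' hr] at e1 e2
    rw [h.rr_kak hκ₁ hκ₂ hs] at e1
    have h6 := h.cosines_ge (κ₁⁻¹ * κ) s r
    have e3 : (κ₁ * h.a s * κ₂)⁻¹ * (κ * h.a r * κ') =
        κ₂⁻¹ * (h.a (-s) * (κ₁⁻¹ * κ) * h.a r) * κ' := by
      rw [h.a_neg]
      group
    have e4 : h.rr ((κ₁ * h.a s * κ₂)⁻¹ * (κ * h.a r * κ')) =
        h.rr (h.a (-s) * (κ₁⁻¹ * κ) * h.a r) := by
      rw [e3, h.rr_mul_K _ hκ', h.rr_K_mul (h.K.inv_mem hκ₂)]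
    have h7 := (abs_le.1 (h.abs_rr_mul_sub (κ₁ * h.a s * κ₂)⁻¹ (κ * h.a r * κ'))).1
    rw [h.rr_inv, h.rr_kak hκ hκ' hr, h.rr_kak hκ₁ hκ₂ hs] at h7
    rw [← e4] at h6
    have h8 := h3 κ₁ hκ₁ κ₂ hκ₂ κ₃ hκ₃ s hs
    have h9 := bd_le_gm h hκ hκ' hκ₃ hr
    have h10 := h2 _ hk1 _ (h.K.mul_mem (h.K.inv_mem hκ) hκ₃)
    rw [show κ₁⁻¹ * κ * (κ⁻¹ * κ₃) = κ₁⁻¹ * κ₃ by group] at h10
    generalize gm h (κ₁ * h.a s * κ₂) (κ₃ : h.Y) = x at *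
    generalize gm h (κ * h.a r * κ') (κ₃ : h.Y) = y at *
    generalize h.rr ((κ₁ * h.a s * κ₂)⁻¹ * (κ * h.a r * κ')) = d at *
    have h11 : h.bd (κ₁⁻¹ * κ) ≤ Real.exp (2 - 2 * r + 2 * y) * Real.exp (-(2 * x)) := by
      refine le_of_mul_le_mul_left (h6.trans ?_) (Real.exp_pos (s + r))
      rw [← Real.exp_add, ← Real.exp_add]
      exact Real.exp_le_exp.2 (by linarith)
    have h12 : Real.exp (2 - 2 * r + 2 * y) * Real.exp (-(2 * x)) ≤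
        Real.exp (2 - 2 * L) * Real.exp (-(2 * x)) :=
      mul_le_mul_of_nonneg_right (Real.exp_le_exp.2 (by linarith)) (Real.exp_pos _).le
    have h13 : Real.exp (-(2 * s)) ≤ Real.exp (2 - 2 * L) * Real.exp (-(2 * x)) := by
      rw [← Real.exp_add]
      exact Real.exp_le_exp.2 (by linarith)
    have h14 := mul_le_mul_of_nonneg_right hL (Real.exp_pos (-(2 * x))).le
    have h15 := mul_le_mul_of_nonneg_left (add_le_add (h11.trans h12) h9) hC'.le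
    have h16 : Real.exp (-(2 * x)) ≤ 2 * C' / c * Real.exp (-(2 * y)) := by
      rw [div_mul_eq_mul_div, le_div_iff₀ hc]
      linarith
    have e5 : Real.exp (2 - 2 * r + 2 * y) * Real.exp (-(2 * y)) =
        Real.exp 2 * Real.exp (-(2 * r)) := by
      rw [← Real.exp_add, ← Real.exp_add]
      congr 1
      ring
    calc _ ≤ Real.exp (2 - 2 * r + 2 * y) * (2 * C' / c * Real.exp (-(2 * y))) :=
          h11.trans (mul_le_mul_of_nonneg_left h16 (Real.exp_pos _).le)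
      _ = 2 * C' / c * (Real.exp (2 - 2 * r + 2 * y) * Real.exp (-(2 * y))) := by ring
      _ = Real.exp 2 * (2 * C' / c) * Real.exp (-(2 * r)) := by rw [e5]; ring
      _ ≤ _ := mul_le_mul_of_nonneg_right hD.2 (Real.exp_pos _).le
  have h6 := h1 _ hk1 k k
  have e : (κ₁ * h.a k)⁻¹ * (κ * h.a k) = h.a (-k) * (κ₁⁻¹ * κ) * h.a k := by
    rw [h.a_neg]
    group
  rw [e]
  refine le_trans ?_ (le_abs_self _)
  rw [Real.le_log_iff_exp_le (by positivity)]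
  refine h6.trans (mul_le_mul_of_nonneg_left ?_ hC.le)
  have h7 : Real.exp (k + k) * h.bd (κ₁⁻¹ * κ) ≤ D * Real.exp 2 := by
    refine (mul_le_mul_of_nonneg_left h5 (Real.exp_pos _).le).trans ?_
    rw [mul_left_comm, ← Real.exp_add]
    exact mul_le_mul_of_nonneg_left (Real.exp_le_exp.2 (by linarith)) hD0
  have h8 : Real.exp (-k - k) ≤ Real.exp 2 := Real.exp_le_exp.2 (by linarith)
  rw [sub_self, Real.exp_zero]
  linarith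

/-- the linear data of an annulus, seen from a wall -/
theorem lin_rep : ∃ C : ℝ, 0 ≤ C ∧ ∀ κ ∈ h.K, ∀ κ' ∈ h.K, ∀ r k i : ℝ, 0 ≤ r → ∀ v' : G,
    k + i + 1 ≤ h.rr v' → (r - h.rr ((κ * h.a r * κ')⁻¹ * v') + h.rr v') / 2 - k ≤ 2 →
    ∃ (d : EE n) (D : EE n →L[ℝ] EE n), ‖d‖ ≤ 2 ∧ ‖D‖ ≤ C ∧ ‖d‖ ≤ C * Real.exp (-(r - k)) ∧
      ‖D‖ ≤ C * Real.exp (-(r - k)) * Real.exp (-i) ∧ ∀ (ζ : EE n) (ξ : h.Y),
        ⟪ζ, du h ((κ * h.a r * κ')⁻¹ • v' • ξ) -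
          du h ((κ * h.a r * κ')⁻¹ • ((κ * h.w0 : G) : h.Y))⟫_ℝ =
          ⟪ζ, d⟫_ℝ + ⟪D ζ, du h ξ⟫_ℝ / be h ((κ * h.a r * κ')⁻¹ * v') ξ := by
  obtain ⟨C, hC, h1⟩ := du_gm h
  have hn : (0 : ℝ) ≤ n := Nat.cast_nonneg n
  refine ⟨C * Real.exp 2 + (1 + n) * Real.exp 3, by positivity,
    fun κ hκ κ' hκ' r k i hr v' h2 h3 => ?_⟩
  obtain ⟨κ₁, hκ₁, κ₂, hκ₂, e⟩ := h.kak_rr ((κ * h.a r * κ')⁻¹ * v')
  have hs := h.rr_nonneg ((κ * h.a r * κ')⁻¹ * v')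
  obtain ⟨D, hD, e1⟩ := exists_con h hκ₁ hκ₂ hs
  rw [← e] at e1
  have h0 : 0 ≤ C * Real.exp 2 := by positivity
  refine ⟨du h (κ₁ : h.Y) - du h ((κ * h.a r * κ')⁻¹ • ((κ * h.w0 : G) : h.Y)),
    ContinuousLinearMap.adjoint D, ?_, ?_, ?_, ?_, fun ζ ξ => ?_⟩
  · refine (norm_sub_le _ _).trans ?_
    linarith [norm_du_le h (κ₁ : h.Y),
      norm_du_le h ((κ * h.a r * κ')⁻¹ • ((κ * h.w0 : G) : h.Y))]
  · rw [LinearIsometryEquiv.norm_map]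
    refine hD.trans (le_trans (mul_le_mul_of_nonneg_left (Real.exp_le_exp.2
      (show _ ≤ (3 : ℝ) by linarith)) (by positivity)) (le_add_of_nonneg_left h0))
  · have h4 := h1 κ hκ κ' hκ' r hr (v' • ((κ₂⁻¹ : G) : h.Y))
    have h5 := gm_wall h (κ * h.a r * κ') v' ((κ₂⁻¹ : G) : h.Y)
    have h6 := bo_le h v' ((κ₂⁻¹ : G) : h.Y)
    have h7 : bo h ((κ * h.a r * κ')⁻¹ * v') ((κ₂⁻¹ : G) : h.Y) = 0 := by
      unfold bo
      rw [h.co_K _ (h.K.inv_mem hκ₂), sub_eq_zero]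
      conv_lhs => rw [e, mul_inv_cancel_right, h.hs_K_mul hκ₁, h.hs_a]
    have h8 : (κ * h.a r * κ')⁻¹ • v' • ((κ₂⁻¹ : G) : h.Y) = (κ₁ : h.Y) := by
      rw [← mul_smul, e, h.smul_mkY, mul_inv_cancel_right, h.mkY_mul (h.a_mem_P _)]
    rw [h.rr_kak hκ hκ' hr] at h5
    rw [h8] at h4
    refine h4.trans (le_trans ?_ (mul_le_mul_of_nonneg_right (le_add_of_nonneg_right
      (by positivity)) (Real.exp_pos _).le))
    rw [mul_assoc C, ← Real.exp_add]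
    exact mul_le_mul_of_nonneg_left (Real.exp_le_exp.2 (by linarith)) hC
  · rw [LinearIsometryEquiv.norm_map]
    refine hD.trans (le_trans ?_ (mul_le_mul_of_nonneg_right (mul_le_mul_of_nonneg_right
      (le_add_of_nonneg_left h0) (Real.exp_pos _).le) (Real.exp_pos _).le))
    rw [mul_assoc (_ * Real.exp 3), mul_assoc (1 + n : ℝ), ← Real.exp_add, ← Real.exp_add]
    exact mul_le_mul_of_nonneg_left (Real.exp_le_exp.2 (by linarith)) (by positivity)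
  · rw [ContinuousLinearMap.adjoint_inner_left, ← e1, real_inner_smul_right,
      mul_div_cancel_left₀ _ (be_pos h _ _).ne', ← inner_add_right, mul_smul]
    congr 1
    abel

end Vale.Agent.P092RA
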