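import Vale.Agent.P092RA.Ann
import Vale.Agent.P092RA.Geo

/-!
P092, rank one, block A0 (helper3): the pieces of level `k`.
-/

set_option linter.all false

open MeasureTheory Filter Topology
open scoped InnerProductSpace ContDiff ENNReal

namespace Vale.Agent.P092RA

open Vale.Agent.P092.H793.Re Vale.Agent.P092RG

variable {n : ℕ} {G : Type} [Group G] [TopologicalSpace G]
variable {ρ : G →* SLn n} {w : Fin n → ℝ}

/-- the partition of unity on the line -/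
noncomputable def om (s : ℝ) : ℝ := Real.smoothTransition (s + 1) - Real.smoothTransition s

theorem contDiff_om : ContDiff ℝ ∞ om :=
  (Real.smoothTransition.contDiff.comp (contDiff_id.add contDiff_const)).sub
    Real.smoothTransition.contDiff

@[fun_prop] theorem continuous_om : Continuous om := contDiff_om.continuous

theorem om_of_le {s : ℝ} (hs : s ≤ -1) : om s = 0 := by
  unfold om
  rw [Real.smoothTransition.zero_of_nonpos (by linarith),
    Real.smoothTransition.zero_of_nonpos (by linarith), sub_zero]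

theorem om_of_ge {s : ℝ} (hs : 1 ≤ s) : om s = 0 := by
  unfold om
  rw [Real.smoothTransition.one_of_one_le (by linarith), Real.smoothTransition.one_of_one_le hs,
    sub_self]

theorem om_nonneg (s : ℝ) : 0 ≤ om s :=
  sub_nonneg.2 (Real.smoothTransition.monotone (by linarith))

theorem om_le (s : ℝ) : om s ≤ 1 := by
  have h1 := Real.smoothTransition.le_one (s + 1)
  have h2 := Real.smoothTransition.nonneg s
  unfold om
  linarith

/-- the profile of the tests -/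
noncomputable def gg (l a : ℝ) (η' η u : EE n) : ℂ := (ps l (a + ⟪η', u⟫_ℝ) : ℝ) * ee ⟪η, u⟫_ℝ

theorem contDiff_dps (l : ℝ) : ContDiff ℝ ∞ (deriv (ps l)) :=
  (contDiff_infty_iff_deriv.1 (contDiff_ps l)).2

@[fun_prop] theorem continuous_dps (l : ℝ) : Continuous (deriv (ps l)) :=
  (contDiff_dps l).continuous

/-- the derivative along the segment -/
noncomputable def H1 (l t a' a τ x p q : ℝ) : ℂ :=
  (om x * Real.exp (2 * (τ * t) * x) : ℝ) * ee (a + τ * q) *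
    ((2 * t * x * ps l (a' + τ * p) + p * deriv (ps l) (a' + τ * p) : ℝ) +
      2 * Real.pi * Complex.I * (q * ps l (a' + τ * p) : ℝ))

theorem int_H1 (l t a' a x p q : ℝ) : ∫ τ in Set.Ioc (0 : ℝ) 1, H1 l t a' a τ x p q =
    (om x : ℝ) * ((Real.exp (2 * t * x) : ℝ) * ((ps l (a' + p) : ℝ) * ee (a + q)) -
      (ps l a' : ℝ) * ee a) := by
  have hd : ∀ τ, HasDerivAt (fun τ : ℝ => ((om x * Real.exp (2 * (τ * t) * x) *
      ps l (a' + τ * p) : ℝ) : ℂ) * ee (a + τ * q)) (H1 l t a' a τ x p q) τ := fun τ => by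
    have h1 : HasDerivAt (fun τ : ℝ => 2 * (τ * t) * x) (2 * t * x) τ := by
      simpa using (((hasDerivAt_id τ).mul_const t).const_mul 2).mul_const x
    have h2 : HasDerivAt (fun τ : ℝ => a' + τ * p) p τ := by
      simpa using ((hasDerivAt_id τ).mul_const p).const_add a'
    have h3 : HasDerivAt (fun τ : ℝ => a + τ * q) q τ := by
      simpa using ((hasDerivAt_id τ).mul_const q).const_add a
    have h4 := (((contDiff_ps l).differentiable (by simp)) (a' + τ * p)).hasDerivAt.comp τ h2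
    have h5 := (hasDerivAt_ee (a + τ * q)).scomp τ h3
    have h6 := (((h1.exp.const_mul (om x)).mul h4).ofReal_comp).mul h5
    refine h6.congr_deriv ?_
    unfold H1
    simp only [Function.comp, Complex.real_smul, Pi.mul_apply]
    push_cast
    ring
  rw [← intervalIntegral.integral_of_le zero_le_one,
    intervalIntegral.integral_eq_sub_of_hasDerivAt (fun τ _ => hd τ)
      (Continuous.intervalIntegrable (by unfold H1; fun_prop) _ _)]
  simp only [one_mul, zero_mul, mul_zero, add_zero, Real.exp_zero, mul_one]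
  push_cast
  ring

/-- the profile of the derivative -/
noncomputable def X1 (l : ℝ) (y : ℝ × (Fin 6 → ℝ)) : ℂ :=
  (om y.1 * Real.exp (2 * y.2 0 * y.1) : ℝ) * ee (y.2 5) *
    ((2 * y.2 1 * y.1 * ps l (y.2 2) + y.2 3 * deriv (ps l) (y.2 2) : ℝ) +
      2 * Real.pi * Complex.I * (y.2 4 * ps l (y.2 2) : ℝ))

theorem contDiff_X1 (l : ℝ) : ContDiff ℝ ∞ (X1 l) := by
  have hp : ∀ j, ContDiff ℝ ∞ fun y : ℝ × (Fin 6 → ℝ) => y.2 j :=
    fun j => (contDiff_apply ℝ ℝ j).comp contDiff_snd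
  have h1 := (contDiff_ps l).comp (hp 2)
  have hc := Complex.ofRealCLM.contDiff (n := ∞)
  exact ((hc.comp ((contDiff_om.comp contDiff_fst).mul (Real.contDiff_exp.comp
    ((contDiff_const.mul (hp 0)).mul contDiff_fst)))).mul (contDiff_ee.comp (hp 5))).mul
    ((hc.comp ((((contDiff_const.mul (hp 1)).mul contDiff_fst).mul h1).add
      ((hp 3).mul ((contDiff_dps l).comp (hp 2))))).add
      (contDiff_const.mul (hc.comp ((hp 4).mul h1))))

variable (h : R1 ρ w)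
include h
variable [IsTopologicalGroup G] [SecondCountableTopology G] [MeasurableSpace G] [BorelSpace G]
  [LocallyCompactSpace G] (μ : Measure G) [μ.IsHaarMeasure]

/-- from the relevant walls to a piece of level at least `k` -/
theorem lev : ∃ C R : ℝ, 0 ≤ C ∧ 0 ≤ R ∧ ∀ t : ℝ, 0 ≤ t → ∀ Z : SN h.Y, ∀ κ ∈ h.K, ∀ κ' ∈ h.K,
    ∀ (r k i A : ℝ) (f : C(h.Y, ℂ)), 0 ≤ r → -1 ≤ k → k ≤ r + 1 → 0 ≤ i → 0 ≤ A →
    (∀ ξ, gm h (κ * h.a r * κ') ξ ≤ k - 1 → f ξ = 0) →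
    (∀ v, k + i + 1 ≤ h.rr v → -R ≤ (r - h.rr ((κ * h.a r * κ')⁻¹ * v) + h.rr v) / 2 - k →
      Z.p (cut h v * f) ≤ A * Real.exp (-(t * h.rr v)) * Real.sqrt (qw h t v Z)) →
    Z.p f ≤ C * Real.exp (h.Q * i / 2) * (A * Real.exp (-(t * k))) *
      bb h μ t Z (κ * h.a k) (i + R) := by
  obtain ⟨C, hC, h1⟩ := gpl h μ
  obtain ⟨R, hR, h2⟩ := rel h
  refine ⟨C * Real.exp (h.Q * (R + 2) / 2), R + 2, by positivity, by linarith,
    fun t ht Z κ hκ κ' hκ' r k i A f hr hk hk' hi hA h3 h4 => ?_⟩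
  have key : ∀ v ∈ shl h (k + i + 1), cut h v * f = 0 ∨
      h.rr ((κ * h.a k)⁻¹ * v) ≤ h.rr v - k + R := fun v hv => by
    by_cases h5 : ∃ ξ, -2 < bo h v ξ ∧ k - 1 ≤ gm h (κ * h.a r * κ') (v • ξ)
    · obtain ⟨ξ, h6, h7⟩ := h5
      exact Or.inr (h2 κ hκ κ' hκ' r k hr hk v ξ (by linarith [hv.1]) h6 h7)
    · exact Or.inl (cut_mul_eq_zero h fun ξ h6 => h3 _ (le_of_not_ge fun h7 => h5 ⟨ξ, h6, h7⟩))
  refine (h1 t Z (k + i + 1) (κ * h.a k) (i + (R + 2)) (A * Real.exp (-(t * k))) f (by linarith)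
    (by linarith) (by positivity) (fun v hv _ => ?_) fun v hv h5 => ?_).trans (le_of_eq ?_)
  · rcases key v hv with h5 | h5
    · rw [h5, Z.zero]
      positivity
    have h6 := h.rr_mul_le ((κ * h.a r * κ')⁻¹ * (κ * h.a k)) ((κ * h.a k)⁻¹ * v)
    have e : (κ * h.a r * κ')⁻¹ * (κ * h.a k) = κ'⁻¹ * h.a (-r + k) := by
      rw [h.a_add, h.a_neg]
      group
    rw [mul_assoc, mul_inv_cancel_left, e, h.rr_K_mul (h.K.inv_mem hκ'), h.rr_a] at h6
    have h7 : |-r + k| ≤ r - k + 2 := abs_le.2 ⟨by linarith, by linarith⟩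
    refine (h4 v hv.1 (by linarith)).trans (mul_le_mul_of_nonneg_right
      (mul_le_mul_of_nonneg_left (Real.exp_le_exp.2 ?_) hA) (Real.sqrt_nonneg _))
    have := mul_le_mul_of_nonneg_left (show k ≤ h.rr v by linarith [hv.1]) ht
    linarith
  · exact (key v hv).resolve_right fun h6 => by linarith [hv.2]
  · rw [show h.Q * (i + (R + 2)) / 2 = h.Q * (R + 2) / 2 + h.Q * i / 2 by ring, Real.exp_add]
    ring

/-- **PL2**: the cutoff above level `k` -/
theorem pl2 : ∃ C R : ℝ, 0 ≤ C ∧ 0 ≤ R ∧ ∀ t : ℝ, 0 ≤ t → t ≤ 1 → ∀ Z : SN h.Y, ∀ κ ∈ h.K,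
    ∀ κ' ∈ h.K, ∀ (r k : ℝ) (f : C(h.Y, ℂ)), 0 ≤ r → -1 ≤ k → k ≤ r + 1 →
    (∀ ξ, f ξ = (Real.smoothTransition (gm h (κ * h.a r * κ') ξ - k + 1) : ℝ)) →
    Z.p f ≤ C * Real.exp (-(t * k)) * bb h μ t Z (κ * h.a k) R := by
  obtain ⟨C, R, hC, hR, h1⟩ := lev h μ
  obtain ⟨C', hC', h2⟩ := ann h (m := 0) (c₀ := 1)
    (Ξ := fun y => (Real.smoothTransition (y.1 + 1) : ℝ))
    (Complex.ofRealCLM.contDiff.comp (Real.smoothTransition.contDiff.comp
      (contDiff_fst.add contDiff_const))) (fun x z hx => by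
        show ((Real.smoothTransition (x + 1) : ℝ) : ℂ) = 1
        rw [Real.smoothTransition.one_of_one_le (by linarith), Complex.ofReal_one]) (R + 2)
  refine ⟨C * C', R, by positivity, hR, fun t ht ht' Z κ hκ κ' hκ' r k f hr hk hk' hf => ?_⟩
  refine (h1 t ht Z κ hκ κ' hκ' r k 0 C' f hr hk hk' le_rfl hC' (fun ξ h3 => ?_)
    fun v h3 h4 => ?_).trans (le_of_eq ?_)
  · rw [hf, Real.smoothTransition.zero_of_nonpos (by linarith), Complex.ofReal_zero]
  · refine h2 t (by rw [abs_of_nonneg ht]; exact ht') v ((κ * h.a r * κ')⁻¹ * v) Z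
      (min ((r - h.rr ((κ * h.a r * κ')⁻¹ * v) + h.rr v) / 2 - k) 2) 0 0
      (abs_le.2 ⟨le_min (by linarith) (by linarith), (min_le_right _ _).trans (by linarith)⟩)
      (fun i => i.elim0) (fun i => i.elim0) f fun ξ h5 => ?_
    rw [hf, gm_wall, h.rr_kak hκ hκ' hr]
    have h6 := bo_le h ((κ * h.a r * κ')⁻¹ * v) ξ
    show _ = ((Real.smoothTransition (_ + 1) : ℝ) : ℂ)
    rcases le_total ((r - h.rr ((κ * h.a r * κ')⁻¹ * v) + h.rr v) / 2 - k) 2 with h7 | h7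
    · rw [min_eq_left h7]
      congr 2
      ring
    · rw [min_eq_right h7, Real.smoothTransition.one_of_one_le (by linarith),
        Real.smoothTransition.one_of_one_le (by linarith)]
  · rw [mul_zero, zero_div, Real.exp_zero, zero_add]
    ring

/-- **PL1**: the oscillation at level `k` -/
theorem pl1 : ∃ C R : ℝ, 0 ≤ C ∧ 0 ≤ R ∧ ∀ t : ℝ, 0 ≤ t → t ≤ 1 → ∀ Z : SN h.Y, ∀ κ ∈ h.K,
    ∀ κ' ∈ h.K, ∀ (r k i A a : ℝ) (η' η : EE n) (f : C(h.Y, ℂ)), 0 ≤ r → -1 ≤ k → k ≤ r + 1 →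
    0 ≤ i → ‖η‖ ≤ Real.exp i → |a| ≤ 1 → ‖η'‖ ≤ n → 0 < A → t ≤ A →
    Real.exp (-(r - k)) * ‖η‖ ≤ A → Real.exp (-(r - k)) * ‖η'‖ ≤ A →
    (∀ ξ, f ξ = (om (gm h (κ * h.a r * κ') ξ - k) : ℝ) *
      ((Real.exp (-(t * h.co (κ * h.a r * κ')⁻¹ ξ)) : ℝ) *
        gg h.lam a η' η (du h ((κ * h.a r * κ')⁻¹ • ξ)) - (Real.exp (-(t * (r - 2 * k))) : ℝ) *
        gg h.lam a η' η (du h ((κ * h.a r * κ')⁻¹ • ((κ * h.w0 : G) : h.Y))))) →
    Z.p f ≤ C * Real.exp (h.Q * i / 2) * (A * Real.exp (-(t * (r - k)))) *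
      bb h μ t Z (κ * h.a k) (i + R) := by
  obtain ⟨C, R, hC, hR, h1⟩ := lev h μ
  obtain ⟨C₁, hC₁, h2⟩ := lin_rep h
  have hn : (0 : ℝ) ≤ n := Nat.cast_nonneg n
  obtain ⟨Λ, hΛ⟩ : ∃ Λ, Λ = R + 2 + 3 * n + C₁ * n + C₁ * 3 := ⟨_, rfl⟩
  have hp := mul_nonneg hC₁ hn
  obtain ⟨C₂, hC₂, h3⟩ := ann h (c₀ := 0) (contDiff_X1 h.lam) (fun x z hx => by
    unfold X1
    rw [om_of_ge hx]
    simp) Λ
  refine ⟨C * C₂, R, by positivity, hR, fun t ht ht' Z κ hκ κ' hκ' r k i A a η' η f hr hk hk' hi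
    hη ha hη' hA htA hA1 hA2 hf => ?_⟩
  obtain ⟨v, hv⟩ : ∃ v, v = κ * h.a r * κ' := ⟨_, rfl⟩
  obtain ⟨u, hu⟩ : ∃ u, u = du h (v⁻¹ • ((κ * h.w0 : G) : h.Y)) := ⟨_, rfl⟩
  have hun : ‖u‖ ≤ 1 := hu ▸ norm_du_le h _
  have hg := continuous_gm h v
  have hd := (du h).continuous
  have hc : Continuous fun z : ℝ × h.Y => H1 h.lam t (a + ⟪η', u⟫_ℝ) ⟪η, u⟫_ℝ z.1 (gm h v z.2 - k)
      ⟪η', du h (v⁻¹ • z.2) - u⟫_ℝ ⟪η, du h (v⁻¹ • z.2) - u⟫_ℝ := by
    unfold H1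
    fun_prop
  let F : C(ℝ, C(h.Y, ℂ)) := ContinuousMap.curry ⟨_, hc⟩
  have hF : ∀ τ ξ, F τ ξ = H1 h.lam t (a + ⟪η', u⟫_ℝ) ⟪η, u⟫_ℝ τ (gm h v ξ - k)
      ⟪η', du h (v⁻¹ • ξ) - u⟫_ℝ ⟪η, du h (v⁻¹ • ξ) - u⟫_ℝ := fun _ _ => rfl
  have hb : ∀ τ ∈ Set.Ioc (0 : ℝ) 1, Z.p (F τ) ≤ C * Real.exp (h.Q * i / 2) *
      (A * C₂ * Real.exp (-(t * k))) * bb h μ t Z (κ * h.a k) (i + R) := fun τ hτ => by
    have hτ1 : |τ| ≤ 1 := by rw [abs_of_pos hτ.1]; exact hτ.2
    refine h1 t ht Z κ hκ κ' hκ' r k i _ _ hr hk hk' hi (by positivity) (fun ξ h4 => ?_)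
      fun v' h4 h5 => ?_
    · rw [hF]
      unfold H1
      rw [om_of_le (by rw [hv]; linarith)]
      simp
    have e0 : ∀ ξ, gm h v (v' • ξ) - k = (r - h.rr (v⁻¹ * v') + h.rr v') / 2 - k +
        (bo h v' ξ - bo h (v⁻¹ * v') ξ) / 2 := fun ξ => by
      rw [gm_wall, hv, h.rr_kak hκ hκ' hr]
      ring
    rcases le_total 2 ((r - h.rr (v⁻¹ * v') + h.rr v') / 2 - k) with h6 | h6
    · rw [cut_mul_eq_zero h fun ξ h7 => ?_, Z.zero]
      · positivity
      · rw [hF]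
        unfold H1
        rw [om_of_ge (by rw [e0]; linarith [bo_le h (v⁻¹ * v') ξ])]
        simp
    obtain ⟨d, D, n1, n2, n3, n4, e1⟩ := h2 κ hκ κ' hκ' r k i hr v' h4 (hv ▸ h6)
    rw [← hv, ← hu] at e1
    rw [← hv] at h5
    obtain ⟨c, hc0⟩ : ∃ c : ℂ, c = A * ee (⟪η, u⟫_ℝ + τ * ⟪η, d⟫_ℝ) := ⟨_, rfl⟩
    have hcn : ‖c‖ = A := by
      rw [hc0, norm_mul, norm_ee, mul_one, Complex.norm_real, Real.norm_eq_abs, abs_of_pos hA]
    have hc1 : c ≠ 0 := norm_pos_iff.1 (hcn ▸ hA)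
    have b1 : ∀ ζ : EE n, Real.exp (-(r - k)) * ‖ζ‖ ≤ A → |⟪ζ, d⟫_ℝ / A| ≤ Λ := fun ζ hζ => by
      rw [abs_div, abs_of_pos hA, div_le_iff₀ hA]
      have h7 := (abs_real_inner_le_norm ζ d).trans (mul_le_mul_of_nonneg_left n3 (norm_nonneg ζ))
      have h8 := mul_le_mul_of_nonneg_left hζ hC₁
      have h9 : C₁ * A ≤ Λ * A := mul_le_mul_of_nonneg_right (by linarith) hA.le
      linarith
    have hi1 : Real.exp (-i) ≤ 1 := Real.exp_le_one_iff.2 (by linarith)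
    have b2 : ∀ ζ : EE n, Real.exp (-(r - k)) * ‖ζ‖ ≤ A → ‖A⁻¹ • D ζ‖ ≤ Λ := fun ζ hζ => by
      rw [norm_smul, norm_inv, Real.norm_eq_abs, abs_of_pos hA, inv_mul_le_iff₀ hA]
      have h7 := (D.le_opNorm ζ).trans (mul_le_mul_of_nonneg_right (n4.trans
        (mul_le_of_le_one_right (by positivity) hi1)) (norm_nonneg ζ))
      have h8 := mul_le_mul_of_nonneg_left hζ hC₁
      have h9 : C₁ * A ≤ Λ * A := mul_le_mul_of_nonneg_right (by linarith) hA.le
      linarith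
    have b3 : ∀ ζ : EE n, ‖τ • ζ‖ ≤ ‖ζ‖ := fun ζ => by
      rw [norm_smul]
      exact mul_le_of_le_one_left (norm_nonneg _) hτ1
    have h7 := h3 t (by rw [abs_of_nonneg ht]; exact ht') v' (v⁻¹ * v') Z
      ((r - h.rr (v⁻¹ * v') + h.rr v') / 2 - k)
      ![τ * t, t / A, a + ⟪η', u⟫_ℝ + τ * ⟪η', d⟫_ℝ, ⟪η', d⟫_ℝ / A, ⟪η, d⟫_ℝ / A, 0]
      ![0, 0, τ • D η', A⁻¹ • D η', A⁻¹ • D η, τ • D η] (abs_le.2 ⟨by linarith, by linarith⟩)
      (fun j => ?_) (fun j => ?_) (c⁻¹ • F τ) fun ξ _ => ?_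
    · rw [mul_smul_comm, Z.smul, norm_inv, hcn, inv_mul_le_iff₀ hA] at h7
      linarith
    · fin_cases j
      · show |τ * t| ≤ Λ
        rw [abs_mul, abs_of_nonneg ht]
        nlinarith [abs_nonneg τ]
      · show |t / A| ≤ Λ
        rw [abs_of_nonneg (by positivity)]
        linarith [(div_le_one hA).2 htA]
      · show |a + ⟪η', u⟫_ℝ + τ * ⟪η', d⟫_ℝ| ≤ Λ
        have h8 := (abs_real_inner_le_norm η' u).trans (mul_le_mul hη' hun (norm_nonneg _) hn)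
        have h9 := (abs_real_inner_le_norm η' d).trans (mul_le_mul hη' n1 (norm_nonneg _) hn)
        have h10 : |τ * ⟪η', d⟫_ℝ| ≤ |⟪η', d⟫_ℝ| := by
          rw [abs_mul]
          exact mul_le_of_le_one_left (abs_nonneg _) hτ1
        linarith [abs_add_three a ⟪η', u⟫_ℝ (τ * ⟪η', d⟫_ℝ)]
      · exact b1 η' hA2
      · exact b1 η hA1
      · show |(0 : ℝ)| ≤ Λ
        rw [abs_zero]
        linarith
    · fin_cases j
      · show ‖(0 : EE n)‖ ≤ Λ
        rw [norm_zero]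
        linarith
      · show ‖(0 : EE n)‖ ≤ Λ
        rw [norm_zero]
        linarith
      · refine (b3 _).trans ((D.le_opNorm _).trans ?_)
        linarith [mul_le_mul n2 hη' (norm_nonneg _) hC₁]
      · exact b2 η' hA2
      · exact b2 η hA1
      · refine (b3 _).trans ((D.le_opNorm _).trans ((mul_le_mul n4 hη (norm_nonneg _)
          (by positivity)).trans ?_))
        rw [mul_assoc, ← Real.exp_add, neg_add_cancel, Real.exp_zero, mul_one]
        have h8 : Real.exp (-(r - k)) ≤ 3 := (Real.exp_le_exp.2 (by linarith)).trans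
          (Real.exp_one_lt_d9.le.trans (by norm_num))
        linarith [mul_le_mul_of_nonneg_left h8 hC₁]
    · rw [ContinuousMap.smul_apply, smul_eq_mul, inv_mul_eq_iff_eq_mul₀ hc1, hF, e0, e1, e1, hc0]
      have hA' : (A : ℂ) ≠ 0 := Complex.ofReal_ne_zero.2 hA.ne'
      unfold H1 X1
      simp only [Matrix.cons_val, inner_zero_left, zero_div, add_zero, zero_add,
        real_inner_smul_left, mul_add τ, ← add_assoc, mul_div_assoc, ee_add]
      push_cast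
      field_simp
  have hI : IntegrableOn (fun τ => ((Real.exp (-(t * (r - 2 * k))) : ℝ) : ℂ) • F τ)
      (Set.Ioc (0 : ℝ) 1) := Continuous.integrableOn_Ioc (by fun_prop)
  refine (Z.zi hI fun ξ => ?_).trans ((setIntegral_mono_on (Z.integrable hI)
    (g := fun _ => Real.exp (-(t * (r - 2 * k))) * (C * Real.exp (h.Q * i / 2) *
      (A * C₂ * Real.exp (-(t * k))) * bb h μ t Z (κ * h.a k) (i + R)))
    (continuous_const.integrableOn_Ioc) measurableSet_Ioc fun τ hτ => ?_).trans (le_of_eq ?_))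
  · simp only [ContinuousMap.smul_apply, smul_eq_mul, hF]
    rw [integral_const_mul, int_H1, hf, ← hv, ← hu, co_gm, show h.rr v = r from
      hv ▸ h.rr_kak hκ hκ' hr, add_assoc, ← inner_add_right, ← inner_add_right, add_sub_cancel,
      show -(t * (r - 2 * gm h v ξ)) = -(t * (r - 2 * k)) + 2 * t * (gm h v ξ - k) by ring,
      Real.exp_add]
    unfold gg
    push_cast
    ring
  · rw [Z.smul, Complex.norm_real, Real.norm_eq_abs, abs_of_pos (Real.exp_pos _)]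
    exact mul_le_mul_of_nonneg_left (hb τ hτ) (Real.exp_pos _).le
  · rw [setIntegral_const, show -(t * (r - k)) = -(t * (r - 2 * k)) + -(t * k) by ring,
      Real.exp_add]
    simp only [Real.volume_real_Ioc, sub_zero, zero_le_one, sup_of_le_left, smul_eq_mul]
    ring

end Vale.Agent.P092RA
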