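import Vale.Agent.P092RA.PL
import Vale.Agent.P092RQ.Defs

/-!
P092, rank one, block A0 (helper3): the piece estimates in the form used for `EQ`.
-/

set_option linter.all false

open MeasureTheory Filter Topology
open scoped InnerProductSpace ENNReal

namespace Vale.Agent.P092RA

open Vale.Agent.P092.H793.Re Vale.Agent.P092RG

variable {n : ℕ} {G : Type} [Group G] [TopologicalSpace G]
variable {ρ : G →* SLn n} {w : Fin n → ℝ} (h : R1 ρ w)
variable [IsTopologicalGroup G] [SecondCountableTopology G] [MeasurableSpace G] [BorelSpace G]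
  [LocallyCompactSpace G] (μ : Measure G) [μ.IsHaarMeasure]

theorem gg_one (η u : EE n) : gg h.lam 1 0 η u = ee ⟪η, u⟫_ℝ := by
  unfold gg
  rw [inner_zero_left, add_zero, ps_one h.lam_pos (Real.exp_le_one_iff.2 (by
    linarith [h.lam_pos])), Complex.ofReal_one, one_mul]

theorem anti_eq (κ κ' : G) (r : ℝ) :
    (κ * h.a r * κ')⁻¹ • ((κ * h.w0 : G) : h.Y) = ((κ'⁻¹ * h.w0 : G) : h.Y) := by
  rw [h.smul_mkY, ← h.mkY_mul (g := κ'⁻¹ * h.w0) (h.a_mem_P r), mul_assoc κ'⁻¹, h.w0_a, h.a_neg]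
  congr 1
  group

theorem plq1 : P092RQ.PL1 h μ := by
  obtain ⟨C, R, hC, hR, h1⟩ := pl1 h μ
  refine ⟨C, R, hC, hR, fun t ht ht' κ hκ κ' hκ' r hr k hk hk' i hi η hη A hA Z f hf => ?_⟩
  have h2 : 0 ≤ Real.exp (-(r - k)) * ‖η‖ := by positivity
  rcases (show 0 ≤ A by linarith).eq_or_lt with h3 | h3
  · have h4 : t = 0 := by linarith
    have h5 : η = 0 := norm_eq_zero.1 ((mul_eq_zero.1 (show Real.exp (-(r - k)) * ‖η‖ = 0 by
      linarith)).resolve_left (Real.exp_pos _).ne')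
    have h6 : f = 0 := by
      ext ξ
      rw [hf, act_apply, h4, h5, em_apply, em_apply]
      simp
    rw [h6, Z.zero, ← h3]
    simp
  refine (h1 t ht (by linarith) Z κ hκ κ' hκ' r k i A 1 0 η f hr hk hk' hi (by linarith)
    (by simp) (by simp) h3 (by linarith) (by linarith) (by simpa using h3.le) fun ξ => ?_).trans
    (le_of_eq (by ring))
  rw [hf, gg_one, gg_one, anti_eq]
  rfl

theorem plq2 : P092RQ.PL2 h μ := by
  obtain ⟨C, R, hC, hR, h1⟩ := pl2 h μ
  exact ⟨C, R, hC, hR, fun t ht ht' κ hκ κ' hκ' r hr k hk hk' Z f hf =>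
    h1 t ht (by linarith) Z κ hκ κ' hκ' r k f hr (by linarith) hk' hf⟩

end Vale.Agent.P092RA
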